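import Mathlib

/-!
P092 (helper201): weak limits along an ultrafilter of translates of a vector, and their invariance
under the contracted elements (Mautner's argument).
-/

open Topology Filter
open scoped InnerProductSpace

namespace Vale.Agent.P092.H201

section Weak

variable {K : Type*} [NormedAddCommGroup K] [InnerProductSpace ℂ K] [CompleteSpace K]

/-- a bounded family has a weak limit along every ultrafilter -/
theorem exists_weak {I : Type*} (U : Ultrafilter I) (v : I → K) (R : ℝ)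
    (hv : ∀ᶠ i in U, ‖v i‖ ≤ R) :
    ∃ w : K, ∀ z : K, Tendsto (fun i => ⟪z, v i⟫_ℂ) U (𝓝 ⟪z, w⟫_ℂ) := by
  have hR : 0 ≤ R := by
    obtain ⟨i, hi⟩ := hv.exists
    exact (norm_nonneg _).trans hi
  have hlim : ∀ z : K, ∃ c : ℂ, c ∈ Metric.closedBall (0 : ℂ) (R * ‖z‖) ∧
      Tendsto (fun i => ⟪v i, z⟫_ℂ) U (𝓝 c) := by
    intro z
    have hc : IsCompact (Metric.closedBall (0 : ℂ) (R * ‖z‖)) := isCompact_closedBall _ _
    obtain ⟨c, hc1, hc2⟩ := hc.ultrafilter_le_nhds (U.map fun i => ⟪v i, z⟫_ℂ) (by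
      rw [le_principal_iff]
      refine hv.mono fun i hi => ?_
      rw [mem_closedBall_zero_iff]
      refine (norm_inner_le_norm _ _).trans ?_
      gcongr)
    exact ⟨c, hc1, hc2⟩
  choose f hf1 hf2 using hlim
  have hf3 : ∀ z, ‖f z‖ ≤ R * ‖z‖ := fun z => by
    have h := hf1 z
    rwa [mem_closedBall_zero_iff] at h
  let ℓ : K →ₗ[ℂ] ℂ :=
    { toFun := f
      map_add' := fun x y => by
        refine tendsto_nhds_unique (hf2 (x + y)) ?_
        refine ((hf2 x).add (hf2 y)).congr fun i => ?_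
        rw [inner_add_right]
      map_smul' := fun a x => by
        refine tendsto_nhds_unique (hf2 (a • x)) ?_
        refine ((hf2 x).const_mul a).congr fun i => ?_
        rw [inner_smul_right] }
  let L : K →L[ℂ] ℂ := ℓ.mkContinuous R hf3
  refine ⟨(InnerProductSpace.toDual ℂ K).symm L, fun z => ?_⟩
  have h1 : ⟪(InnerProductSpace.toDual ℂ K).symm L, z⟫_ℂ = f z := by
    rw [InnerProductSpace.toDual_symm_apply]
    rfl
  have h2 : ⟪z, (InnerProductSpace.toDual ℂ K).symm L⟫_ℂ = (starRingEnd ℂ) (f z) := by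
    rw [← h1, inner_conj_symm]
  rw [h2]
  have h3 := (Complex.continuous_conj.tendsto (f z)).comp (hf2 z)
  refine h3.congr fun i => ?_
  simp only [Function.comp_apply]
  exact inner_conj_symm _ _

/-- closed convex sets are weakly closed -/
theorem mem_of_weak {I : Type*} {l : Filter I} [l.NeBot] {v : I → K} {w : K}
    (hw : ∀ z : K, Tendsto (fun i => ⟪z, v i⟫_ℂ) l (𝓝 ⟪z, w⟫_ℂ)) {C : Set K} (hC : Convex ℝ C)
    (hC2 : IsClosed C) (h : ∀ᶠ i in l, v i ∈ C) : w ∈ C := by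
  by_contra hwC
  obtain ⟨f, u, hf1, hf2⟩ :=
    RCLike.geometric_hahn_banach_point_closed (𝕜 := ℂ) hC hC2 hwC
  set z := (InnerProductSpace.toDual ℂ K).symm f with hz
  have h1 : ∀ x, f x = ⟪z, x⟫_ℂ := by
    intro x
    rw [hz, InnerProductSpace.toDual_symm_apply]
  have h3 : Tendsto (fun i => RCLike.re (f (v i))) l (𝓝 (RCLike.re (f w))) := by
    simp only [h1]
    exact (RCLike.continuous_re.tendsto _).comp (hw z)
  have h4 : u ≤ RCLike.re (f w) := ge_of_tendsto h3 (h.mono fun i hi => (hf2 _ hi).le)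
  linarith

theorem norm_le_of_weak {I : Type*} {l : Filter I} [l.NeBot] {v : I → K} {w : K}
    (hw : ∀ z : K, Tendsto (fun i => ⟪z, v i⟫_ℂ) l (𝓝 ⟪z, w⟫_ℂ)) {R : ℝ}
    (h : ∀ᶠ i in l, ‖v i‖ ≤ R) : ‖w‖ ≤ R := by
  have h1 := mem_of_weak hw (convex_closedBall (0 : K) R) Metric.isClosed_closedBall
    (h.mono fun i hi => mem_closedBall_zero_iff.2 hi)
  exact mem_closedBall_zero_iff.1 h1

end Weak

section Mautner

variable {E K : Type*} [Group E] [TopologicalSpace E]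
  [NormedAddCommGroup K] [InnerProductSpace ℂ K] [CompleteSpace K]

/-- **Weak limits of translates.**  `σ` an isometric action, `F` a vector with continuous orbit at
`1`, `b i` a family with `‖⟪σ (b i) F, F⟫‖ ≥ δ` along the ultrafilter `U`.  There is a vector `w`
with `‖⟪w, F⟫‖ ≥ δ`, which is the weak limit of `σ (b i) F`, fixed by every `u` with
`(b i)⁻¹ u (b i) → 1`, and contained in every closed convex set containing the `σ (b i) F`. -/
theorem exists_fixed_of_ultrafilter {I : Type*} (U : Ultrafilter I) {σ : E →* (K →L[ℂ] K)}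
    (hσ : ∀ g x, ‖σ g x‖ = ‖x‖) {F : K} (hF : Tendsto (fun g => σ g F) (𝓝 1) (𝓝 F))
    {b : I → E} {δ : ℝ} (hδ : ∀ᶠ i in U, δ ≤ ‖⟪σ (b i) F, F⟫_ℂ‖) :
    ∃ w : K, (∀ z : K, Tendsto (fun i => ⟪z, σ (b i) F⟫_ℂ) U (𝓝 ⟪z, w⟫_ℂ)) ∧
      δ ≤ ‖⟪w, F⟫_ℂ‖ ∧ ‖w‖ ≤ ‖F‖ ∧
      (∀ u, Tendsto (fun i => (b i)⁻¹ * u * b i) U (𝓝 1) → σ u w = w) ∧
      (∀ C : Set K, Convex ℝ C → IsClosed C → (∀ᶠ i in U, σ (b i) F ∈ C) → w ∈ C) := by
  obtain ⟨w, hw⟩ := exists_weak U (fun i => σ (b i) F) ‖F‖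
    (Filter.Eventually.of_forall fun i => (hσ _ _).le)
  refine ⟨w, hw, ?_, ?_, ?_, ?_⟩
  · have h1 : Tendsto (fun i => ‖⟪σ (b i) F, F⟫_ℂ‖) U (𝓝 ‖⟪w, F⟫_ℂ‖) := by
      have h2 := (hw F).norm
      have h3 : ‖⟪F, w⟫_ℂ‖ = ‖⟪w, F⟫_ℂ‖ := norm_inner_symm _ _
      rw [h3] at h2
      refine h2.congr fun i => ?_
      exact norm_inner_symm _ _
    exact ge_of_tendsto h1 hδ
  · exact norm_le_of_weak hw (Filter.Eventually.of_forall fun i => (hσ _ _).le)
  · intro u hu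
    -- `⟪z, σ u w⟫ = lim ⟪σ u⁻¹ z, σ (b i) F⟫ = lim ⟪z, σ (u b i) F⟫`
    refine ext_inner_left ℂ fun z => ?_
    have hinv : ∀ x y : K, ⟪x, σ u y⟫_ℂ = ⟪σ u⁻¹ x, y⟫_ℂ := by
      intro x y
      have h1 : ⟪σ u (σ u⁻¹ x), σ u y⟫_ℂ = ⟪σ u⁻¹ x, y⟫_ℂ :=
        (LinearIsometry.mk (σ u).toLinearMap (hσ u)).inner_map_map _ _
      have h2 : σ u (σ u⁻¹ x) = x := by
        have h3 : (σ u * σ u⁻¹) x = x := by rw [← map_mul, mul_inv_cancel, map_one]; rfl
        exact h3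
      rwa [h2] at h1
    have h1 : Tendsto (fun i => ⟪z, σ u (σ (b i) F)⟫_ℂ) U (𝓝 ⟪z, σ u w⟫_ℂ) := by
      simp only [hinv]
      exact hw _
    have h2 : Tendsto (fun i => ⟪z, σ u (σ (b i) F) - σ (b i) F⟫_ℂ) U (𝓝 0) := by
      rw [tendsto_zero_iff_norm_tendsto_zero]
      have h3 : Tendsto (fun i => ‖z‖ * ‖σ ((b i)⁻¹ * u * b i) F - F‖) U (𝓝 0) := by
        have h4 := ((hF.comp hu).sub_const F).norm.const_mul ‖z‖
        rw [sub_self, norm_zero, mul_zero] at h4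
        exact h4
      refine squeeze_zero (fun i => norm_nonneg _) (fun i => ?_) h3
      refine (norm_inner_le_norm _ _).trans ?_
      have h5 : σ u (σ (b i) F) - σ (b i) F = σ (b i) (σ ((b i)⁻¹ * u * b i) F - F) := by
        rw [map_sub]
        have h6 : σ u (σ (b i) F) = σ (b i) (σ ((b i)⁻¹ * u * b i) F) := by
          have h7 : (σ u * σ (b i)) F = (σ (b i) * σ ((b i)⁻¹ * u * b i)) F := by
            rw [← map_mul, ← map_mul]
            congr 2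
            group
          exact h7
        rw [h6]
      rw [h5, hσ]
    have h3 := h2.add (hw z)
    rw [zero_add] at h3
    refine tendsto_nhds_unique h1 (h3.congr fun i => ?_)
    rw [← inner_add_right, sub_add_cancel]
  · intro C hC hC2 h
    exact mem_of_weak hw hC hC2 h

/-- the same for a sequence with frequently large coefficients -/
theorem exists_fixed {σ : E →* (K →L[ℂ] K)}
    (hσ : ∀ g x, ‖σ g x‖ = ‖x‖) {F : K} (hF : Tendsto (fun g => σ g F) (𝓝 1) (𝓝 F))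
    {b : ℕ → E} {δ : ℝ} (hδ : ∃ᶠ N in atTop, δ ≤ ‖⟪σ (b N) F, F⟫_ℂ‖) :
    ∃ (U : Ultrafilter ℕ) (w : K), (U : Filter ℕ) ≤ atTop ∧
      (∀ z : K, Tendsto (fun i => ⟪z, σ (b i) F⟫_ℂ) U (𝓝 ⟪z, w⟫_ℂ)) ∧
      δ ≤ ‖⟪w, F⟫_ℂ‖ ∧ ‖w‖ ≤ ‖F‖ ∧
      (∀ u, Tendsto (fun N => (b N)⁻¹ * u * b N) atTop (𝓝 1) → σ u w = w) ∧
      (∀ C : Set K, Convex ℝ C → IsClosed C → (∀ᶠ N in atTop, σ (b N) F ∈ C) → w ∈ C) := by
  set S : Set ℕ := {N | δ ≤ ‖⟪σ (b N) F, F⟫_ℂ‖} with hS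
  have hne : (atTop ⊓ 𝓟 S).NeBot := by
    rw [← Filter.frequently_mem_iff_neBot]
    exact hδ
  set U := Ultrafilter.of (atTop ⊓ 𝓟 S) with hU
  have hUle : (U : Filter ℕ) ≤ atTop ⊓ 𝓟 S := Ultrafilter.of_le _
  have h1 : (U : Filter ℕ) ≤ atTop := hUle.trans inf_le_left
  have h2 : ∀ᶠ N in U, δ ≤ ‖⟪σ (b N) F, F⟫_ℂ‖ :=
    (hUle.trans inf_le_right) (Filter.mem_principal_self S)
  obtain ⟨w, hw1, hw2, hw3, hw4, hw5⟩ := exists_fixed_of_ultrafilter U hσ hF h2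
  exact ⟨U, w, h1, hw1, hw2, hw3, fun u hu => hw4 u (hu.mono_left h1),
    fun C hC hC2 h => hw5 C hC hC2 (h.filter_mono h1)⟩

end Mautner

end Vale.Agent.P092.H201
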