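import Vale.Agent.P092.H160.Rep

/-!
P092 (helper201): the bimodule `L²(G; K)` of Team A, part 1: the antiunitary involution
`J (b ω) = b⁎ ω`.  `ρ` is a regular representation of the countable group `Γ` on `K` with trace
vector `ω`, `ι : Γ →* G` a homomorphism, `μ` a left invariant measure on `G`.
-/

set_option linter.all false

open scoped InnerProductSpace Topology ENNReal
open Filter ContinuousLinearMap MeasureTheory
open Vale.Agent.P092.H160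

namespace Vale.Agent.P092.H201.Cj

section kap

variable {G : Type} [Group G] [MeasurableSpace G] [MeasurableMul G] {μ : Measure G}
  [μ.IsMulLeftInvariant]

/-- `f ↦ conj (f (g⁻¹ ·))` on `L²(G)` -/
noncomputable def kap (g : G) (f : Lp ℂ 2 μ) : Lp ℂ 2 μ :=
  star (Lp.compMeasurePreserving (fun x => g⁻¹ * x) (measurePreserving_mul_left μ g⁻¹) f)

theorem kap_ae (g : G) (f : Lp ℂ 2 μ) :
    ∀ᵐ x ∂μ, kap g f x = (starRingEnd ℂ) (f (g⁻¹ * x)) := by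
  have h1 := Lp.coeFn_star
    (Lp.compMeasurePreserving (fun x => g⁻¹ * x) (measurePreserving_mul_left μ g⁻¹) f)
  have h2 := Lp.coeFn_compMeasurePreserving f (measurePreserving_mul_left μ g⁻¹)
  filter_upwards [h1, h2] with x h1 h2
  have h3 : kap g f x = star ((Lp.compMeasurePreserving (fun x => g⁻¹ * x)
    (measurePreserving_mul_left μ g⁻¹) f) x) := h1
  rw [h3, h2]
  rfl

theorem ae_left (g : G) {P : G → Prop} (h : ∀ᵐ x ∂μ, P x) : ∀ᵐ x ∂μ, P (g * x) :=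
  (measurePreserving_mul_left μ g).quasiMeasurePreserving.ae h

theorem kap_kap (g : G) (f : Lp ℂ 2 μ) : kap g (kap g⁻¹ f) = f := by
  apply Lp.ext
  have h1 := ae_left (μ := μ) g⁻¹ (kap_ae g⁻¹ f)
  filter_upwards [kap_ae g (kap g⁻¹ f), h1] with x h2 h1
  rw [h2, h1, inv_inv, mul_inv_cancel_left, Complex.conj_conj]

theorem inner_kap (g : G) (f f' : Lp ℂ 2 μ) : ⟪kap g f, kap g f'⟫_ℂ = ⟪f', f⟫_ℂ := by
  rw [L2.inner_def, L2.inner_def]
  have h1 : ∫ x, ⟪kap g f x, kap g f' x⟫_ℂ ∂μ = ∫ x, ⟪f' (g⁻¹ * x), f (g⁻¹ * x)⟫_ℂ ∂μ := by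
    refine integral_congr_ae ?_
    filter_upwards [kap_ae g f, kap_ae g f'] with x h1 h2
    rw [h1, h2]
    simp only [RCLike.inner_apply, Complex.conj_conj]
    ring
  rw [h1]
  exact integral_mul_left_eq_self (fun x => ⟪f' x, f x⟫_ℂ) g⁻¹

theorem norm_kap (g : G) (f : Lp ℂ 2 μ) : ‖kap g f‖ = ‖f‖ := by
  have h1 := inner_kap g f f
  rw [inner_self_eq_norm_sq_to_K, inner_self_eq_norm_sq_to_K] at h1
  have h2 : ‖kap g f‖ ^ 2 = ‖f‖ ^ 2 := by exact_mod_cast h1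
  exact (pow_left_inj₀ (norm_nonneg _) (norm_nonneg _) two_ne_zero).mp h2

end kap

section J

variable {Γ G K : Type} [Group Γ] [Group G] [MeasurableSpace G] [MeasurableMul G] {μ : Measure G}
  [μ.IsMulLeftInvariant] [NormedAddCommGroup K] [InnerProductSpace ℂ K] [CompleteSpace K]

/-- the coordinate `x ↦ ⟪u, ξ x⟫` -/
noncomputable def co (μ : Measure G) (u : K) : Lp K 2 μ →L[ℂ] Lp ℂ 2 μ :=
  (innerSL ℂ u).compLpL 2 μ

theorem co_ae (u : K) (f : Lp K 2 μ) : ∀ᵐ x ∂μ, co μ u f x = ⟪u, f x⟫_ℂ := by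
  have h1 := (innerSL ℂ u).coeFn_compLpL (p := 2) (μ := μ) f
  filter_upwards [h1] with x hx
  exact hx

/-- `f ↦ f ⊗ u` for a unit vector `u` -/
noncomputable def W (μ : Measure G) (u : K) (hu : ‖u‖ = 1) : Lp ℂ 2 μ →ₗᵢ[ℂ] Lp K 2 μ where
  toLinearMap := ((ContinuousLinearMap.toSpanSingleton ℂ u).compLpL 2 μ).toLinearMap
  norm_map' f := by
    have h1 := (ContinuousLinearMap.toSpanSingleton ℂ u).coeFn_compLpL (p := 2) (μ := μ) f
    change ‖(ContinuousLinearMap.toSpanSingleton ℂ u).compLpL 2 μ f‖ = ‖f‖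
    rw [Lp.norm_def, Lp.norm_def]
    congr 1
    refine eLpNorm_congr_norm_ae ?_
    filter_upwards [h1] with x hx
    rw [hx, ContinuousLinearMap.toSpanSingleton_apply, norm_smul, hu, mul_one]

theorem W_ae (u : K) (hu : ‖u‖ = 1) (f : Lp ℂ 2 μ) : ∀ᵐ x ∂μ, W μ u hu f x = f x • u := by
  have h1 := (ContinuousLinearMap.toSpanSingleton ℂ u).coeFn_compLpL (p := 2) (μ := μ) f
  filter_upwards [h1] with x hx
  exact hx

theorem inner_W (u : K) (hu : ‖u‖ = 1) (f : Lp ℂ 2 μ) (g : Lp K 2 μ) :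
    ⟪W μ u hu f, g⟫_ℂ = ⟪f, co μ u g⟫_ℂ := by
  rw [L2.inner_def, L2.inner_def]
  refine integral_congr_ae ?_
  filter_upwards [W_ae u hu f, co_ae u g] with x h1 h2
  rw [h1, h2, inner_smul_left, RCLike.inner_apply, mul_comm]

variable {ρ : Γ →* (K →L[ℂ] K)} {ω : K} (h : RegRep ρ ω)

include h in
theorem norm_rho (γ : Γ) : ‖ρ γ ω‖ = 1 := by rw [h.norm_map, h.norm_one]

theorem co_ext [Countable Γ] (h : RegRep ρ ω) {f g : Lp K 2 μ}
    (hfg : ∀ γ, co μ (ρ γ ω) f = co μ (ρ γ ω) g) : f = g := by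
  apply Lp.ext
  have h1 : ∀ᵐ x ∂μ, ∀ γ : Γ, ⟪ρ γ ω, f x⟫_ℂ = ⟪ρ γ ω, g x⟫_ℂ := by
    rw [ae_all_iff]
    intro γ
    filter_upwards [co_ae (ρ γ ω) f, co_ae (ρ γ ω) g] with x h1 h2
    rw [← h1, ← h2, hfg]
  filter_upwards [h1] with x hx
  exact h.ext_vec hx

theorem isHilbertSum [Countable Γ] (h : RegRep ρ ω) :
    IsHilbertSum ℂ (fun _ : Γ => Lp ℂ 2 μ) (fun γ => W μ (ρ γ ω) (norm_rho h γ)) := by
  refine IsHilbertSum.mk ?_ ?_
  · intro γ δ hne f g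
    change ⟪W μ (ρ γ ω) (norm_rho h γ) f, W μ (ρ δ ω) (norm_rho h δ) g⟫_ℂ = 0
    rw [L2.inner_def]
    refine integral_eq_zero_of_ae ?_
    filter_upwards [W_ae (ρ γ ω) (norm_rho h γ) f, W_ae (ρ δ ω) (norm_rho h δ) g] with x h1 h2
    rw [h1, h2, inner_smul_left, inner_smul_right, h.orthonormal.2 hne]
    simp
  · rw [top_le_iff, Submodule.topologicalClosure_eq_top_iff, Submodule.eq_bot_iff]
    intro g hg
    have h1 : ∀ γ, co μ (ρ γ ω) g = co μ (ρ γ ω) 0 := by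
      intro γ
      rw [map_zero]
      refine ext_inner_left ℂ fun f => ?_
      rw [← inner_W (ρ γ ω) (norm_rho h γ), inner_zero_right]
      refine (Submodule.mem_orthogonal _ _).1 hg _ ?_
      exact Submodule.mem_iSup_of_mem γ ⟨f, rfl⟩
    exact co_ext h h1

/-- coordinates -/
noncomputable def Phi (μ : Measure G) [μ.IsMulLeftInvariant] [Countable Γ] (h : RegRep ρ ω) :
    Lp K 2 μ ≃ₗᵢ[ℂ] lp (fun _ : Γ => Lp ℂ 2 μ) 2 :=
  (isHilbertSum (μ := μ) h).linearIsometryEquiv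

theorem Phi_apply [Countable Γ] (f : Lp K 2 μ) (γ : Γ) : Phi μ h f γ = co μ (ρ γ ω) f := by
  classical
  refine ext_inner_left ℂ fun g => ?_
  rw [← inner_W (ρ γ ω) (norm_rho h γ)]
  have h1 : W μ (ρ γ ω) (norm_rho h γ) g = (Phi μ h).symm (lp.single 2 γ g) :=
    ((isHilbertSum (μ := μ) h).linearIsometryEquiv_symm_apply_single g).symm
  have h2 : ⟪(Phi μ h).symm (lp.single 2 γ g), f⟫_ℂ = ⟪lp.single 2 γ g, Phi μ h f⟫_ℂ := by
    rw [← (Phi μ h).inner_map_map, LinearIsometryEquiv.apply_symm_apply]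
  rw [h1, h2, lp.inner_single_left]

/-- the involution in coordinates -/
noncomputable def Acc (ι : Γ →* G) (w : lp (fun _ : Γ => Lp ℂ 2 μ) 2) :
    lp (fun _ : Γ => Lp ℂ 2 μ) 2 :=
  ⟨fun γ => kap (ι γ) (w γ⁻¹), by
    have h1 := lp.memℓp w
    change Memℓp (fun γ => kap (ι γ) (w γ⁻¹)) 2
    rw [memℓp_gen_iff (by norm_num)] at h1 ⊢
    simp only [norm_kap]
    exact (Equiv.inv Γ).summable_iff.2 h1⟩

theorem Acc_apply (ι : Γ →* G) (w : lp (fun _ : Γ => Lp ℂ 2 μ) 2) (γ : Γ) :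
    Acc ι w γ = kap (ι γ) (w γ⁻¹) := rfl

theorem inner_Acc (ι : Γ →* G) (w z : lp (fun _ : Γ => Lp ℂ 2 μ) 2) :
    ⟪Acc ι w, Acc ι z⟫_ℂ = ⟪z, w⟫_ℂ := by
  rw [lp.inner_eq_tsum, lp.inner_eq_tsum]
  simp only [Acc_apply, inner_kap]
  exact (Equiv.inv Γ).tsum_eq (fun γ => ⟪z γ, w γ⟫_ℂ)

/-- The antiunitary involution `J (b ω) = b⁎ ω`. -/
noncomputable def J [Countable Γ] (ι : Γ →* G) (h : RegRep ρ ω) (f : Lp K 2 μ) : Lp K 2 μ :=
  (Phi μ h).symm (Acc ι (Phi μ h f))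

theorem co_J [Countable Γ] (ι : Γ →* G) (f : Lp K 2 μ) (γ : Γ) :
    co μ (ρ γ ω) (J ι h f) = kap (ι γ) (co μ (ρ γ⁻¹ ω) f) := by
  rw [← Phi_apply h, J, LinearIsometryEquiv.apply_symm_apply, Acc_apply, Phi_apply]

/-- the coordinates of `J f` almost everywhere -/
theorem J_ae [Countable Γ] (ι : Γ →* G) (f : Lp K 2 μ) :
    ∀ᵐ x ∂μ, ∀ γ : Γ, ⟪ρ γ ω, J ι h f x⟫_ℂ =
      (starRingEnd ℂ) ⟪ρ γ⁻¹ ω, f ((ι γ)⁻¹ * x)⟫_ℂ := by
  rw [ae_all_iff]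
  intro γ
  have h1 := co_ae (ρ γ ω) (J ι h f)
  have h2 := kap_ae (ι γ) (co μ (ρ γ⁻¹ ω) f)
  have h3 := ae_left (μ := μ) (ι γ)⁻¹ (co_ae (ρ γ⁻¹ ω) f)
  filter_upwards [h1, h2, h3] with x h1 h2 h3
  rw [← h1, co_J, h2, h3]

theorem inner_J [Countable Γ] (ι : Γ →* G) (f g : Lp K 2 μ) :
    ⟪J ι h f, J ι h g⟫_ℂ = ⟪g, f⟫_ℂ := by
  rw [J, J, LinearIsometryEquiv.inner_map_map, inner_Acc, LinearIsometryEquiv.inner_map_map]

theorem norm_J [Countable Γ] (ι : Γ →* G) (f : Lp K 2 μ) : ‖J ι h f‖ = ‖f‖ := by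
  have h1 := inner_J h ι f f
  rw [inner_self_eq_norm_sq_to_K, inner_self_eq_norm_sq_to_K] at h1
  have h2 : ‖J ι h f‖ ^ 2 = ‖f‖ ^ 2 := by exact_mod_cast h1
  exact (pow_left_inj₀ (norm_nonneg _) (norm_nonneg _) two_ne_zero).mp h2

theorem J_J [Countable Γ] (ι : Γ →* G) (f : Lp K 2 μ) : J ι h (J ι h f) = f := by
  refine co_ext h fun γ => ?_
  rw [co_J, co_J, inv_inv, map_inv]
  exact kap_kap _ _

theorem J_add [Countable Γ] (ι : Γ →* G) (f g : Lp K 2 μ) :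
    J ι h (f + g) = J ι h f + J ι h g := by
  apply Lp.ext
  filter_upwards [J_ae h ι f, J_ae h ι g, J_ae h ι (f + g), Lp.coeFn_add (J ι h f) (J ι h g),
    ae_all_iff.2 fun γ : Γ => ae_left (μ := μ) (ι γ)⁻¹ (Lp.coeFn_add f g)] with x h1 h2 h3 h4 h5
  refine h.ext_vec fun γ => ?_
  rw [h3, h4, Pi.add_apply, inner_add_right, h1, h2, h5, Pi.add_apply, inner_add_right, map_add]

theorem J_smul [Countable Γ] (ι : Γ →* G) (c : ℂ) (f : Lp K 2 μ) :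
    J ι h (c • f) = (starRingEnd ℂ) c • J ι h f := by
  apply Lp.ext
  filter_upwards [J_ae h ι f, J_ae h ι (c • f), Lp.coeFn_smul ((starRingEnd ℂ) c) (J ι h f),
    ae_all_iff.2 fun γ : Γ => ae_left (μ := μ) (ι γ)⁻¹ (Lp.coeFn_smul c f)] with x h1 h3 h4 h5
  refine h.ext_vec fun γ => ?_
  rw [h3, h4, Pi.smul_apply, inner_smul_right, h1, h5, Pi.smul_apply, inner_smul_right, map_mul]

/-- `J` is the adjoint operation on fields -/
theorem J_field [Countable Γ] (ι : Γ →* G) {b : G → K →L[ℂ] K}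
    (hb : ∀ γ x, b (ι γ * x) = ρ γ * b x * ρ γ⁻¹) {f : Lp K 2 μ}
    (hf : ∀ᵐ x ∂μ, f x = b x ω) : ∀ᵐ x ∂μ, J ι h f x = adjoint (b x) ω := by
  filter_upwards [J_ae h ι f, ae_all_iff.2 fun γ : Γ => ae_left (μ := μ) (ι γ)⁻¹ hf] with x h1 h2
  refine h.ext_vec fun γ => ?_
  rw [h1, h2, adjoint_inner_right]
  have h3 : b ((ι γ)⁻¹ * x) = ρ γ⁻¹ * b x * ρ γ := by
    have h4 := hb γ⁻¹ x
    rwa [map_inv, inv_inv] at h4
  rw [h3, mul_ap, mul_ap, h.inner_map, inner_conj_symm]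

end J

end Vale.Agent.P092.H201.Cj
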