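import Vale.Agent.P092.H201.Cj

/-!
P092 (helper201): the bimodule `L²(G; K)` of Team A, part 2: left and right multiplication, the
diagonal fields of the functions on `G`, and the conjugation representation.
-/

set_option linter.all false

open scoped InnerProductSpace Topology ENNReal
open Filter ContinuousLinearMap MeasureTheory
open Vale.Agent.P092.H160

namespace Vale.Agent.P092.H201.Cj

section lft

variable {G K : Type} [MeasurableSpace G] {μ : Measure G}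
  [NormedAddCommGroup K] [InnerProductSpace ℂ K] [CompleteSpace K]

/-- pointwise application of an operator -/
noncomputable def lft (μ : Measure G) (m : K →L[ℂ] K) : Lp K 2 μ →L[ℂ] Lp K 2 μ := m.compLpL 2 μ

theorem lft_ae (m : K →L[ℂ] K) (f : Lp K 2 μ) : ∀ᵐ x ∂μ, lft μ m f x = m (f x) :=
  m.coeFn_compLpL (p := 2) (μ := μ) f

theorem norm_lft_le (m : K →L[ℂ] K) (f : Lp K 2 μ) : ‖lft μ m f‖ ≤ ‖m‖ * ‖f‖ :=
  m.norm_compLp_le f

theorem lft_one : lft μ (1 : K →L[ℂ] K) = 1 := by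
  refine ContinuousLinearMap.ext fun f => ?_
  apply Lp.ext
  filter_upwards [lft_ae (1 : K →L[ℂ] K) f] with x hx
  rw [hx]
  rfl

theorem lft_mul (m m' : K →L[ℂ] K) : lft μ (m * m') = lft μ m * lft μ m' := by
  refine ContinuousLinearMap.ext fun f => ?_
  apply Lp.ext
  filter_upwards [lft_ae (m * m') f, lft_ae m (lft μ m' f), lft_ae m' f] with x h1 h2 h3
  rw [mul_ap, h1, h2, h3, mul_ap]

theorem inner_lft (m : K →L[ℂ] K) (f g : Lp K 2 μ) :
    ⟪lft μ m f, g⟫_ℂ = ⟪f, lft μ (adjoint m) g⟫_ℂ := by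
  rw [L2.inner_def, L2.inner_def]
  refine integral_congr_ae ?_
  filter_upwards [lft_ae m f, lft_ae (adjoint m) g] with x h1 h2
  rw [h1, h2, adjoint_inner_right]

theorem adjoint_lft (m : K →L[ℂ] K) : adjoint (lft μ m) = lft μ (adjoint m) := by
  symm
  rw [eq_adjoint_iff]
  intro f g
  rw [inner_lft, adjoint_adjoint]

end lft

section rgt

variable {Γ G K : Type} [Group Γ] [Countable Γ] [Group G] [MeasurableSpace G] [MeasurableMul G]
  {μ : Measure G} [μ.IsMulLeftInvariant] [NormedAddCommGroup K] [InnerProductSpace ℂ K]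
  [CompleteSpace K] {ρ : Γ →* (K →L[ℂ] K)} {ω : K}

/-- right multiplication -/
noncomputable def rgt (μ : Measure G) [μ.IsMulLeftInvariant] (ι : Γ →* G) (h : RegRep ρ ω)
    (m : K →L[ℂ] K) : Lp K 2 μ →L[ℂ] Lp K 2 μ :=
  LinearMap.mkContinuous
    { toFun := fun f => J ι h (lft μ (adjoint m) (J ι h f))
      map_add' := fun f g => by rw [J_add, map_add, J_add]
      map_smul' := fun c f => by
        rw [J_smul, map_smul, J_smul, Complex.conj_conj, RingHom.id_apply] }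
    ‖m‖ (fun f => by
      change ‖J ι h (lft μ (adjoint m) (J ι h f))‖ ≤ ‖m‖ * ‖f‖
      rw [norm_J]
      refine (norm_lft_le _ _).trans ?_
      rw [norm_J, LinearIsometryEquiv.norm_map])

variable (ι : Γ →* G) (h : RegRep ρ ω)

theorem rgt_apply (m : K →L[ℂ] K) (f : Lp K 2 μ) :
    rgt μ ι h m f = J ι h (lft μ (adjoint m) (J ι h f)) := rfl

theorem norm_rgt_le (m : K →L[ℂ] K) (f : Lp K 2 μ) : ‖rgt μ ι h m f‖ ≤ ‖m‖ * ‖f‖ := by
  rw [rgt_apply, norm_J]
  refine (norm_lft_le _ _).trans ?_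
  rw [norm_J, LinearIsometryEquiv.norm_map]

theorem rgt_one : rgt μ ι h (1 : K →L[ℂ] K) = 1 := by
  refine ContinuousLinearMap.ext fun f => ?_
  have h1 : adjoint (1 : K →L[ℂ] K) = 1 := star_one _
  rw [rgt_apply, h1, lft_one]
  exact J_J h ι f

theorem rgt_mul (m m' : K →L[ℂ] K) : rgt μ ι h (m * m') = rgt μ ι h m' * rgt μ ι h m := by
  refine ContinuousLinearMap.ext fun f => ?_
  have h1 : adjoint (m * m') = adjoint m' * adjoint m := star_mul _ _
  rw [mul_ap, rgt_apply, rgt_apply, rgt_apply, h1, lft_mul, J_J, mul_ap]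

theorem adjoint_rgt (m : K →L[ℂ] K) : adjoint (rgt μ ι h m) = rgt μ ι h (adjoint m) := by
  symm
  rw [eq_adjoint_iff]
  intro f g
  have h1 : ∀ a b : Lp K 2 μ, ⟪J ι h a, b⟫_ℂ = ⟪J ι h b, a⟫_ℂ := by
    intro a b
    rw [← inner_J h ι, J_J]
  have h2 : ∀ a b : Lp K 2 μ, ⟪a, J ι h b⟫_ℂ = ⟪b, J ι h a⟫_ℂ := by
    intro a b
    rw [← inner_J h ι, J_J]
  rw [rgt_apply, rgt_apply, h1, adjoint_adjoint, h2, ← adjoint_adjoint m, ← inner_lft,
    adjoint_adjoint, ← inner_conj_symm, h1]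

/-- fields -/
def IsFd (ι : Γ →* G) (ρ : Γ →* (K →L[ℂ] K)) (b : G → K →L[ℂ] K) : Prop :=
  ∀ γ x, b (ι γ * x) = ρ γ * b x * ρ γ⁻¹

theorem rho_mul_inv (γ : Γ) : ρ γ * ρ γ⁻¹ = 1 := by rw [← map_mul, mul_inv_cancel, map_one]

theorem rho_inv_mul (γ : Γ) : ρ γ⁻¹ * ρ γ = 1 := by rw [← map_mul, inv_mul_cancel, map_one]

variable {ι} {h} in
theorem IsFd.adj {b : G → K →L[ℂ] K} (hb : IsFd ι ρ b) (h : RegRep ρ ω) :
    IsFd ι ρ (fun x => adjoint (b x)) := by
  intro γ x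
  change adjoint (b (ι γ * x)) = ρ γ * adjoint (b x) * ρ γ⁻¹
  rw [hb]
  change star (ρ γ * b x * ρ γ⁻¹) = _
  rw [star_mul, star_mul, star_eq_adjoint (ρ γ⁻¹), h.adj, inv_inv, star_eq_adjoint (ρ γ), h.adj,
    star_eq_adjoint, mul_assoc]

variable {ι} {h} in
theorem IsFd.lm {b : G → K →L[ℂ] K} (hb : IsFd ι ρ b) {m : K →L[ℂ] K} (hm : Cmm ρ m) :
    IsFd ι ρ (fun x => m * b x) := by
  intro γ x
  change m * b (ι γ * x) = ρ γ * (m * b x) * ρ γ⁻¹
  rw [hb, ← mul_assoc, ← mul_assoc, hm, ← mul_assoc]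

variable {ι} {h} in
theorem IsFd.rm {b : G → K →L[ℂ] K} (hb : IsFd ι ρ b) {m : K →L[ℂ] K} (hm : Cmm ρ m) :
    IsFd ι ρ (fun x => b x * m) := by
  intro γ x
  change b (ι γ * x) * m = ρ γ * (b x * m) * ρ γ⁻¹
  rw [hb, mul_assoc, ← hm, ← mul_assoc, mul_assoc (ρ γ)]

theorem lft_field {b : G → K →L[ℂ] K} (m : K →L[ℂ] K) {f : Lp K 2 μ}
    (hf : ∀ᵐ x ∂μ, f x = b x ω) : ∀ᵐ x ∂μ, lft μ m f x = (m * b x) ω := by
  filter_upwards [lft_ae m f, hf] with x h1 h2
  rw [h1, h2, mul_ap]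

theorem rgt_field {b : G → K →L[ℂ] K} (hb : IsFd ι ρ b) {m : K →L[ℂ] K} (hm : Cmm ρ m)
    {f : Lp K 2 μ} (hf : ∀ᵐ x ∂μ, f x = b x ω) : ∀ᵐ x ∂μ, rgt μ ι h m f x = (b x * m) ω := by
  have h1 := J_field h ι hb hf
  have h2 : ∀ᵐ x ∂μ, lft μ (adjoint m) (J ι h f) x = (adjoint m * adjoint (b x)) ω :=
    lft_field (b := fun x => adjoint (b x)) (adjoint m) h1
  have h3 : IsFd ι ρ (fun x => adjoint m * adjoint (b x)) :=
    (hb.adj h).lm (h.cmm_adjoint hm)
  have h4 := J_field (b := fun x => adjoint m * adjoint (b x)) h ι h3 h2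
  filter_upwards [h4] with x hx
  have h5 : adjoint (adjoint m * adjoint (b x)) = b x * m := by
    change star (star m * star (b x)) = _
    rw [star_mul, star_star, star_star]
  rw [rgt_apply, hx, h5]

end rgt

section diag

variable {Γ G K : Type} [Group Γ] [Group G] [NormedAddCommGroup K] [InnerProductSpace ℂ K]
  [CompleteSpace K] {ρ : Γ →* (K →L[ℂ] K)} {ω : K}

/-- the projection on the closed span of the `ρ γ ω`, `γ ∈ S` -/
noncomputable def pS (ρ : Γ →* (K →L[ℂ] K)) (ω : K) (S : Set Γ) : K →L[ℂ] K :=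
  (Submodule.span ℂ ((fun γ => ρ γ ω) '' S)).topologicalClosure.starProjection

theorem pS_mem {S : Set Γ} {γ : Γ} (hγ : γ ∈ S) : pS ρ ω S (ρ γ ω) = ρ γ ω := by
  rw [pS, Submodule.starProjection_eq_self_iff]
  exact Submodule.le_topologicalClosure _ (Submodule.subset_span ⟨γ, hγ, rfl⟩)

theorem pS_not_mem (h : RegRep ρ ω) {S : Set Γ} {γ : Γ} (hγ : γ ∉ S) :
    pS ρ ω S (ρ γ ω) = 0 := by
  rw [pS, Submodule.starProjection_apply_eq_zero_iff, Submodule.orthogonal_closure,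
    Submodule.mem_orthogonal]
  intro u hu
  induction hu using Submodule.span_induction with
  | mem u hu =>
    obtain ⟨δ, hδ, rfl⟩ := hu
    refine h.orthonormal.2 ?_
    rintro rfl
    exact hγ hδ
  | zero => exact inner_zero_left _
  | add u v _ _ hu hv => rw [inner_add_left, hu, hv, add_zero]
  | smul c u _ hu => rw [inner_smul_left, hu, mul_zero]

theorem pS_norm_le (S : Set Γ) : ‖pS ρ ω S‖ ≤ 1 := Submodule.starProjection_norm_le _

theorem pS_pos (S : Set Γ) : (pS ρ ω S).IsPositive := by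
  have h1 : IsStarProjection (pS ρ ω S) := isStarProjection_starProjection
  exact (ContinuousLinearMap.nonneg_iff_isPositive _).1 h1.nonneg

/-- the diagonal field of the indicator function of `U` -/
noncomputable def dg (ι : Γ →* G) (ρ : Γ →* (K →L[ℂ] K)) (ω : K) (U : Set G) (x : G) :
    K →L[ℂ] K := pS ρ ω {γ | (ι γ)⁻¹ * x ∈ U}

open scoped Classical in
theorem dg_apply (ι : Γ →* G) (h : RegRep ρ ω) (U : Set G) (x : G) (γ : Γ) :
    dg ι ρ ω U x (ρ γ ω) = if (ι γ)⁻¹ * x ∈ U then ρ γ ω else 0 := by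
  split_ifs with h1
  · exact pS_mem h1
  · exact pS_not_mem h h1

theorem dg_isFd (ι : Γ →* G) (h : RegRep ρ ω) (U : Set G) (γ : Γ) (x : G) :
    dg ι ρ ω U (ι γ * x) = ρ γ * dg ι ρ ω U x * ρ γ⁻¹ := by
  classical
  refine h.ext_op fun δ => ?_
  have h1 : ρ γ⁻¹ (ρ δ ω) = ρ (γ⁻¹ * δ) ω := by rw [map_mul, mul_ap]
  rw [mul_ap, mul_ap, h1, dg_apply ι h, dg_apply ι h]
  have h2 : (ι (γ⁻¹ * δ))⁻¹ * x = (ι δ)⁻¹ * (ι γ * x) := by
    rw [map_mul, map_inv]; group
  rw [h2]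
  split_ifs with h3
  · rw [← h1, h.apply_inv]
  · rw [map_zero]

theorem dg_meas [Countable Γ] [MeasurableSpace G] [MeasurableMul G] (ι : Γ →* G)
    (h : RegRep ρ ω) {U : Set G} (hU : MeasurableSet U) (k : K) :
    StronglyMeasurable fun x => dg ι ρ ω U x k := by
  classical
  have h1 : ∀ γ : Γ, StronglyMeasurable fun x => dg ι ρ ω U x (ρ γ ω) := by
    intro γ
    simp only [dg_apply ι h]
    refine StronglyMeasurable.ite ?_ stronglyMeasurable_const stronglyMeasurable_const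
    exact (measurable_const_mul ((ι γ)⁻¹)) hU
  have h2 : ∀ S : Finset Γ, StronglyMeasurable fun x =>
      ∑ γ ∈ S, ⟪ρ γ ω, k⟫_ℂ • dg ι ρ ω U x (ρ γ ω) := by
    intro S
    refine Finset.stronglyMeasurable_fun_sum S fun γ _ => ?_
    exact (h1 γ).const_smul _
  refine stronglyMeasurable_of_tendsto (f := fun (S : Finset Γ) (x : G) =>
      ∑ γ ∈ S, ⟪ρ γ ω, k⟫_ℂ • dg ι ρ ω U x (ρ γ ω)) atTop h2 ?_
  rw [tendsto_pi_nhds]
  intro x
  have h3 : HasSum (fun γ => ⟪ρ γ ω, k⟫_ℂ • ρ γ ω) k := by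
    have h4 := h.basis.hasSum_repr k
    simpa only [HilbertBasis.repr_apply_apply, h.basis_apply] using h4
  have h5 := h3.mapL (dg ι ρ ω U x)
  simp only [map_smul] at h5
  exact h5

/-- every translate of the trace vector is a trace vector -/
theorem regRep_translate (h : RegRep ρ ω) (γ : Γ) : RegRep ρ (ρ γ ω) where
  adj := h.adj
  norm_one := by rw [h.norm_map, h.norm_one]
  inner_zero := by
    intro g hg
    have h1 : ⟪ρ γ ω, ρ (g * γ) ω⟫_ℂ = 0 := by
      refine h.orthonormal.2 ?_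
      intro h2
      exact hg (mul_eq_right.1 h2.symm)
    rwa [map_mul, mul_ap] at h1
  total := by
    intro v hv
    refine h.total v fun g => ?_
    have h1 := hv (g * γ⁻¹)
    rwa [← mul_ap, ← map_mul, inv_mul_cancel_right] at h1

/-- the shift `ρ δ ω ↦ ρ δ ρ γ ω`, in the commutant of `ρ` -/
noncomputable def shf (h : RegRep ρ ω) (γ : Γ) : K →L[ℂ] K :=
  ((h.basis.repr.trans (regRep_translate h γ).basis.repr.symm).toContinuousLinearEquiv :
    K →L[ℂ] K)

theorem shf_apply (h : RegRep ρ ω) (γ δ : Γ) : shf h γ (ρ δ ω) = ρ δ (ρ γ ω) := by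
  classical
  have h1 : h.basis.repr (ρ δ ω) = lp.single 2 δ 1 := by
    rw [← h.basis_apply δ]
    exact h.basis.repr_self δ
  change (regRep_translate h γ).basis.repr.symm (h.basis.repr (ρ δ ω)) = _
  rw [h1]
  have h2 := (regRep_translate h γ).basis.repr_symm_single δ
  rw [h2, (regRep_translate h γ).basis_apply]

theorem cmm_shf (h : RegRep ρ ω) (γ : Γ) : Cmm ρ (shf h γ) := by
  intro g
  refine h.ext_op fun δ => ?_
  rw [mul_ap, mul_ap, shf_apply, ← mul_ap (ρ g) (ρ δ), ← map_mul, shf_apply, map_mul, mul_ap]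

theorem shf_omega (h : RegRep ρ ω) (γ : Γ) : shf h γ ω = ρ γ ω := by
  have h1 := shf_apply h γ 1
  rw [map_one] at h1
  exact h1

end diag

section ext

variable {Γ G K : Type} [Group Γ] [Countable Γ] [Group G] [MeasurableSpace G] [MeasurableMul G]
  {μ : Measure G} [μ.IsMulLeftInvariant] [NormedAddCommGroup K] [InnerProductSpace ℂ K]
  [CompleteSpace K] {ρ : Γ →* (K →L[ℂ] K)} {ω : K}

/-- two operators on `L²(G; K)` which agree on the vectors `1_s ⊗ ρ γ ω` are equal -/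
theorem ext_ind (h : RegRep ρ ω) {A B : Lp K 2 μ →L[ℂ] Lp K 2 μ}
    (hAB : ∀ (s : Set G) (hs : MeasurableSet s) (hμ : μ s ≠ ⊤) (γ : Γ),
      A (indicatorConstLp 2 hs hμ (ρ γ ω)) = B (indicatorConstLp 2 hs hμ (ρ γ ω))) : A = B := by
  -- agreement on `f ⊗ ρ γ ω`
  have h1 : ∀ (γ : Γ) (f : Lp ℂ 2 μ),
      A (W μ (ρ γ ω) (norm_rho h γ) f) = B (W μ (ρ γ ω) (norm_rho h γ) f) := by
    intro γ
    have hW : ∀ (c : ℂ) (s : Set G) (hs : MeasurableSet s) (hμ : μ s ≠ ⊤),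
        W μ (ρ γ ω) (norm_rho h γ) (indicatorConstLp 2 hs hμ c) =
          c • indicatorConstLp 2 hs hμ (ρ γ ω) := by
      intro c s hs hμ
      apply Lp.ext
      filter_upwards [W_ae (ρ γ ω) (norm_rho h γ) (indicatorConstLp 2 hs hμ c),
        Lp.coeFn_smul c (indicatorConstLp 2 hs hμ (ρ γ ω)),
        indicatorConstLp_coeFn (p := 2) (hs := hs) (hμs := hμ) (c := c),
        indicatorConstLp_coeFn (p := 2) (hs := hs) (hμs := hμ) (c := ρ γ ω)] with x h1 h2 h3 h4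
      rw [h1, h2, h3, Pi.smul_apply, h4]
      by_cases hx : x ∈ s
      · simp [hx]
      · simp [hx]
    refine Lp.induction (p := 2) (by norm_num) (motive := fun f =>
      A (W μ (ρ γ ω) (norm_rho h γ) f) = B (W μ (ρ γ ω) (norm_rho h γ) f)) ?_ ?_ ?_
    · intro c s hs hμ
      rw [Lp.simpleFunc.coe_indicatorConst, hW, map_smul, map_smul, hAB]
    · intro f g hf hg _ hf1 hg1
      rw [map_add, map_add, map_add, hf1, hg1]
    · refine isClosed_eq ?_ ?_
      · exact A.continuous.comp (LinearIsometry.continuous _)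
      · exact B.continuous.comp (LinearIsometry.continuous _)
  refine ContinuousLinearMap.ext fun f => ?_
  have h2 := (isHilbertSum (μ := μ) h).hasSum_linearIsometryEquiv_symm (Phi μ h f)
  have h3 : (isHilbertSum (μ := μ) h).linearIsometryEquiv.symm (Phi μ h f) = f :=
    LinearIsometryEquiv.symm_apply_apply _ _
  rw [h3] at h2
  have h4 := h2.mapL A
  have h5 := h2.mapL B
  simp only [h1] at h4
  exact h4.unique h5

/-- left and right multiplications commute -/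
theorem lft_rgt (ι : Γ →* G) (h : RegRep ρ ω) {m m' : K →L[ℂ] K} (hm : Cmm ρ m)
    (hm' : Cmm ρ m') : lft μ m * rgt μ ι h m' = rgt μ ι h m' * lft μ m := by
  refine ext_ind h fun s hs hμ γ => ?_
  -- the vector is the one of the field `shf γ * dg s`
  have h1 : ∀ᵐ x ∂μ, indicatorConstLp 2 hs hμ (ρ γ ω) x = (shf h γ * dg ι ρ ω s x) ω := by
    filter_upwards [indicatorConstLp_coeFn (p := 2) (hs := hs) (hμs := hμ) (c := ρ γ ω)] with x hx
    classical
    have h2 := dg_apply ι h s x 1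
    rw [map_one, map_one, inv_one, one_mul] at h2
    have h3 : dg ι ρ ω s x ω = if x ∈ s then ω else 0 := h2
    rw [hx, mul_ap, h3]
    by_cases hxs : x ∈ s
    · simp [hxs, shf_omega]
    · simp [hxs]
  have hf : IsFd ι ρ (fun x => shf h γ * dg ι ρ ω s x) :=
    IsFd.lm (fun γ x => dg_isFd ι h s γ x) (cmm_shf h γ)
  have h2 := rgt_field (b := fun x => shf h γ * dg ι ρ ω s x) ι h hf hm' h1
  have h3 := lft_field (b := fun x => shf h γ * dg ι ρ ω s x * m') m h2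
  have h4 := lft_field (b := fun x => shf h γ * dg ι ρ ω s x) m h1
  have h5 := rgt_field (b := fun x => m * (shf h γ * dg ι ρ ω s x)) ι h (hf.lm hm) hm' h4
  apply Lp.ext
  filter_upwards [h3, h5] with x h3 h5
  rw [mul_ap, mul_ap, h3, h5]
  simp only [mul_assoc]

end ext

section cj

variable {Γ Λ G K : Type} [Group Γ] [Group Λ] [Countable Γ] [Group G] [MeasurableSpace G]
  [MeasurableMul G] {μ : Measure G} [μ.IsMulLeftInvariant] [NormedAddCommGroup K]
  [InnerProductSpace ℂ K] [CompleteSpace K] {ρ : Γ →* (K →L[ℂ] K)} {ω : K}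
  {V : Λ →* (K →L[ℂ] K)}

/-- **The conjugation representation** `b ω ↦ V v b V v⁻¹ ω` of `Λ` on `L²(G; K)`. -/
noncomputable def cj (μ : Measure G) [μ.IsMulLeftInvariant] (ι : Γ →* G) (h : RegRep ρ ω)
    (hV : ∀ v, Cmm ρ (V v)) : Λ →* (Lp K 2 μ →L[ℂ] Lp K 2 μ) where
  toFun v := lft μ (V v) * rgt μ ι h (V v⁻¹)
  map_one' := by rw [inv_one, map_one, lft_one, rgt_one, one_mul]
  map_mul' v w := by
    have h1 : rgt μ ι h (V (v * w)⁻¹) = rgt μ ι h (V v⁻¹) * rgt μ ι h (V w⁻¹) := by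
      rw [mul_inv_rev, map_mul, rgt_mul]
    rw [h1, map_mul, lft_mul]
    have h2 := lft_rgt (μ := μ) ι h (hV w) (hV v⁻¹)
    calc lft μ (V v) * lft μ (V w) * (rgt μ ι h (V v⁻¹) * rgt μ ι h (V w⁻¹))
        = lft μ (V v) * (lft μ (V w) * rgt μ ι h (V v⁻¹)) * rgt μ ι h (V w⁻¹) := by
          simp only [mul_assoc]
      _ = _ := by rw [h2]; simp only [mul_assoc]

theorem cj_apply (ι : Γ →* G) (h : RegRep ρ ω) (hV : ∀ v, Cmm ρ (V v)) (v : Λ) :
    cj μ ι h hV v = lft μ (V v) * rgt μ ι h (V v⁻¹) := rfl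

theorem adjoint_cj (ι : Γ →* G) (h : RegRep ρ ω) (hV : ∀ v, Cmm ρ (V v))
    (hVa : ∀ v, adjoint (V v) = V v⁻¹) (v : Λ) :
    adjoint (cj μ ι h hV v) = cj μ ι h hV v⁻¹ := by
  have h1 : adjoint (cj μ ι h hV v) = adjoint (rgt μ ι h (V v⁻¹)) * adjoint (lft μ (V v)) :=
    star_mul _ _
  rw [h1, adjoint_rgt, adjoint_lft, hVa, hVa, cj_apply, inv_inv,
    lft_rgt ι h (hV v⁻¹) (hV v)]

/-- the conjugation representation on the vectors of fields -/
theorem cj_field (ι : Γ →* G) (h : RegRep ρ ω) (hV : ∀ v, Cmm ρ (V v)) {b : G → K →L[ℂ] K}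
    (hb : IsFd ι ρ b) {f : Lp K 2 μ} (hf : ∀ᵐ x ∂μ, f x = b x ω) (v : Λ) :
    ∀ᵐ x ∂μ, cj μ ι h hV v f x = (V v * b x * V v⁻¹) ω := by
  have h1 := rgt_field ι h hb (hV v⁻¹) hf
  have h2 := lft_field (b := fun x => b x * V v⁻¹) (V v) h1
  filter_upwards [h2] with x hx
  rw [cj_apply, mul_ap, hx, mul_assoc]

end cj

end Vale.Agent.P092.H201.Cj
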