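import Mathlib

/-!
P092 (helper201): vectors on which an isometric action of a dense subgroup is continuous, and the
action of the ambient group on them.
-/

open Topology Filter
open scoped InnerProductSpace

namespace Vale.Agent.P092.H201

section Defs

variable {Λ H K : Type*} [Group Λ] [Group H] [TopologicalSpace H] [IsTopologicalGroup H]
  [NormedAddCommGroup K] [InnerProductSpace ℂ K]

/-- The vectors `x` such that `c v x` is near `x` when `p v` is near `1`. -/
def contVec (p : Λ →* H) (c : Λ →* (K →L[ℂ] K)) : Submodule ℂ K where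
  carrier := {x | Tendsto (fun v => c v x) (comap p (𝓝 1)) (𝓝 x)}
  add_mem' {x y} hx hy := by
    have h := Tendsto.add (f := fun v => c v x) (g := fun v => c v y) hx hy
    simpa only [Set.mem_ofPred_eq, map_add] using h
  zero_mem' := by
    simpa only [Set.mem_ofPred_eq, map_zero] using tendsto_const_nhds
  smul_mem' a x hx := by
    have h := Tendsto.const_smul (f := fun v => c v x) hx a
    simpa only [Set.mem_ofPred_eq, map_smul] using h

variable {p : Λ →* H} {c : Λ →* (K →L[ℂ] K)}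

omit [IsTopologicalGroup H] in
theorem mem_contVec {x : K} :
    x ∈ contVec p c ↔ Tendsto (fun v => c v x) (comap p (𝓝 1)) (𝓝 x) := Iff.rfl

omit [IsTopologicalGroup H] in
theorem mem_contVec_iff {x : K} :
    x ∈ contVec p c ↔ ∀ ε : ℝ, 0 < ε → ∃ U ∈ 𝓝 (1 : H), ∀ v, p v ∈ U → ‖c v x - x‖ ≤ ε := by
  rw [mem_contVec, Metric.tendsto_nhds]
  constructor
  · intro h ε hε
    obtain ⟨U, hU, hU2⟩ := Filter.mem_comap.1 (h ε hε)
    refine ⟨U, hU, fun v hv => ?_⟩
    have h1 : dist (c v x) x < ε := hU2 hv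
    rw [dist_eq_norm] at h1
    exact h1.le
  · intro h ε hε
    obtain ⟨U, hU, hU2⟩ := h (ε / 2) (by positivity)
    refine Filter.mem_comap.2 ⟨U, hU, fun v hv => ?_⟩
    have h1 := hU2 v hv
    have h2 : dist (c v x) x < ε := by
      rw [dist_eq_norm]
      linarith
    exact h2

theorem comp_inv (v : Λ) (x : K) : c v⁻¹ (c v x) = x := by
  have h : (c v⁻¹ * c v) x = x := by rw [← map_mul, inv_mul_cancel, map_one]; rfl
  exact h

theorem comp_inv' (v : Λ) (x : K) : c v (c v⁻¹ x) = x := by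
  have h : (c v * c v⁻¹) x = x := by rw [← map_mul, mul_inv_cancel, map_one]; rfl
  exact h

theorem comp_mul (v w : Λ) (x : K) : c (v * w) x = c v (c w x) := by
  rw [map_mul]; rfl

/-- an isometric action preserves scalar products -/
theorem inner_act (hc : ∀ v x, ‖c v x‖ = ‖x‖) (v : Λ) (x y : K) : ⟪c v x, c v y⟫_ℂ = ⟪x, y⟫_ℂ := by
  have h := (LinearIsometry.mk (c v).toLinearMap (hc v)).inner_map_map x y
  exact h

theorem norm_sub_act (hc : ∀ v x, ‖c v x‖ = ‖x‖) (v : Λ) (x y : K) :
    ‖c v x - c v y‖ = ‖x - y‖ := by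
  rw [← map_sub, hc]

omit [IsTopologicalGroup H] in
theorem isClosed_contVec (hc : ∀ v x, ‖c v x‖ = ‖x‖) : IsClosed (contVec p c : Set K) := by
  rw [← closure_subset_iff_isClosed]
  intro x hx
  rw [SetLike.mem_coe, mem_contVec_iff]
  intro ε hε
  obtain ⟨y, hy, hxy⟩ := Metric.mem_closure_iff.1 hx (ε / 3) (by positivity)
  rw [SetLike.mem_coe, mem_contVec_iff] at hy
  obtain ⟨U, hU, hU2⟩ := hy (ε / 3) (by positivity)
  refine ⟨U, hU, fun v hv => ?_⟩
  rw [dist_eq_norm] at hxy
  have h1 := hU2 v hv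
  have h2 : ‖c v x - c v y‖ = ‖x - y‖ := norm_sub_act hc v x y
  have h3 : c v x - x = (c v x - c v y) + (c v y - y) + (y - x) := by abel
  rw [h3]
  refine (norm_add₃_le).trans ?_
  rw [norm_sub_rev y x]
  linarith

/-- the space of continuous vectors is invariant under the action -/
theorem act_mem_contVec {x : K} (hx : x ∈ contVec p c) (w : Λ) : c w x ∈ contVec p c := by
  rw [mem_contVec] at hx ⊢
  have h1 : Tendsto (fun v => w⁻¹ * v * w) (comap p (𝓝 1)) (comap p (𝓝 1)) := by
    rw [tendsto_comap_iff]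
    have h2 : Tendsto (fun h : H => (p w)⁻¹ * h * p w) (𝓝 1) (𝓝 ((p w)⁻¹ * 1 * p w)) :=
      Continuous.tendsto (by fun_prop) _
    rw [mul_one, inv_mul_cancel] at h2
    refine (h2.comp tendsto_comap).congr fun v => ?_
    simp only [Function.comp_apply, map_mul, map_inv]
  have h3 := ((c w).continuous.tendsto x).comp (hx.comp h1)
  refine h3.congr fun v => ?_
  simp only [Function.comp_apply]
  rw [← comp_mul, ← comp_mul]
  congr 2
  group

end Defs

section Maps

variable {Λ H K K' : Type*} [Group Λ] [Group H] [TopologicalSpace H] [IsTopologicalGroup H]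
  [NormedAddCommGroup K] [InnerProductSpace ℂ K] [NormedAddCommGroup K'] [InnerProductSpace ℂ K']
  {p : Λ →* H} {c : Λ →* (K →L[ℂ] K)} {c' : Λ →* (K' →L[ℂ] K')}

omit [IsTopologicalGroup H] in
/-- a continuous equivariant map (not necessarily linear) preserves continuous vectors -/
theorem map_mem_contVec {S : K → K'} {x : K} (hS : ContinuousAt S x)
    (h : ∀ v, S (c v x) = c' v (S x)) (hx : x ∈ contVec p c) : S x ∈ contVec p c' := by
  rw [mem_contVec] at hx ⊢
  refine (hS.tendsto.comp hx).congr fun v => ?_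
  simp only [Function.comp_apply]
  exact h v

end Maps

section Ext

variable {Λ H K : Type*} [Group Λ] [Group H] [TopologicalSpace H] [IsTopologicalGroup H]
  [NormedAddCommGroup K] [InnerProductSpace ℂ K] [CompleteSpace K]
  {p : Λ →* H} {c : Λ →* (K →L[ℂ] K)}

omit [IsTopologicalGroup H] in
theorem neBot_comap (hp : DenseRange p) (h : H) : (comap p (𝓝 h)).NeBot := by
  rw [comap_neBot_iff]
  intro t ht
  obtain ⟨_, hx, v, rfl⟩ := mem_closure_iff_nhds.1 (hp h) t ht
  exact ⟨v, hx⟩

/-- the orbit map of a continuous vector extends to the ambient group -/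
theorem exists_lim (hp : DenseRange p) (hc : ∀ v x, ‖c v x‖ = ‖x‖) {x : K}
    (hx : x ∈ contVec p c) (h : H) : ∃ y, Tendsto (fun v => c v x) (comap p (𝓝 h)) (𝓝 y) := by
  have := neBot_comap hp h
  have h1 : Cauchy (map (fun v => c v x) (comap p (𝓝 h))) := by
    rw [Metric.cauchy_iff]
    refine ⟨inferInstance, fun ε hε => ?_⟩
    rw [mem_contVec_iff] at hx
    obtain ⟨U, hU, hU2⟩ := hx (ε / 2) (by positivity)
    have h2 : Tendsto (fun q : H × H => q.1⁻¹ * q.2) (𝓝 h ×ˢ 𝓝 h) (𝓝 1) := by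
      have h3 : Tendsto (fun q : H × H => q.1⁻¹ * q.2) (𝓝 (h, h)) (𝓝 (h⁻¹ * h)) :=
        Continuous.tendsto (by fun_prop) _
      rwa [inv_mul_cancel, nhds_prod_eq] at h3
    obtain ⟨A, hA, B, hB, hAB⟩ := Filter.mem_prod_iff.1 (h2 hU)
    refine ⟨(fun v => c v x) '' (p ⁻¹' (A ∩ B)), image_mem_map
      (Filter.preimage_mem_comap (Filter.inter_mem hA hB)), ?_⟩
    rintro _ ⟨v, hv, rfl⟩ _ ⟨w, hw, rfl⟩
    have h4 : p (v⁻¹ * w) ∈ U := by
      have h5 : (p v, p w) ∈ A ×ˢ B := ⟨hv.1, hw.2⟩
      have h6 := hAB h5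
      simpa only [Set.mem_preimage, map_mul, map_inv] using h6
    have h7 := hU2 _ h4
    have h8 : dist (c v x) (c w x) < ε := by
      have h9 : c w x = c v (c (v⁻¹ * w) x) := by
        rw [← comp_mul, mul_inv_cancel_left]
      rw [h9, dist_comm, dist_eq_norm, norm_sub_act hc]
      linarith
    exact h8
  obtain ⟨y, hy⟩ := CompleteSpace.complete h1
  exact ⟨y, hy⟩

/-- the extension of the orbit map -/
noncomputable def ext (hp : DenseRange p) (hc : ∀ v x, ‖c v x‖ = ‖x‖) (h : H)
    (x : contVec p c) : K :=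
  Classical.choose (exists_lim hp hc x.2 h)

theorem tendsto_ext (hp : DenseRange p) (hc : ∀ v x, ‖c v x‖ = ‖x‖) (h : H) (x : contVec p c) :
    Tendsto (fun v => c v (x : K)) (comap p (𝓝 h)) (𝓝 (ext hp hc h x)) :=
  Classical.choose_spec (exists_lim hp hc x.2 h)

theorem ext_eq (hp : DenseRange p) (hc : ∀ v x, ‖c v x‖ = ‖x‖) {h : H} {x : contVec p c} {y : K}
    (hy : Tendsto (fun v => c v (x : K)) (comap p (𝓝 h)) (𝓝 y)) : ext hp hc h x = y := by
  have := neBot_comap hp h
  exact tendsto_nhds_unique (tendsto_ext hp hc h x) hy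

theorem ext_mem (hp : DenseRange p) (hc : ∀ v x, ‖c v x‖ = ‖x‖) (h : H) (x : contVec p c) :
    ext hp hc h x ∈ contVec p c := by
  have := neBot_comap hp h
  exact (isClosed_contVec hc).mem_of_tendsto (tendsto_ext hp hc h x)
    (Filter.Eventually.of_forall fun v => act_mem_contVec x.2 v)

theorem norm_ext (hp : DenseRange p) (hc : ∀ v x, ‖c v x‖ = ‖x‖) (h : H) (x : contVec p c) :
    ‖ext hp hc h x‖ = ‖x‖ := by
  have := neBot_comap hp h
  have h1 := (tendsto_ext hp hc h x).norm
  simp only [hc] at h1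
  exact tendsto_nhds_unique h1 tendsto_const_nhds

/-- the action of `H` on the continuous vectors, as a linear map -/
noncomputable def actL (hp : DenseRange p) (hc : ∀ v x, ‖c v x‖ = ‖x‖) (h : H) :
    contVec p c →ₗ[ℂ] contVec p c where
  toFun x := ⟨ext hp hc h x, ext_mem hp hc h x⟩
  map_add' x y := by
    apply Subtype.ext
    refine ext_eq hp hc ?_
    have h1 := (tendsto_ext hp hc h x).add (tendsto_ext hp hc h y)
    refine h1.congr fun v => ?_
    simp only [Submodule.coe_add, map_add]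
  map_smul' a x := by
    apply Subtype.ext
    refine ext_eq hp hc ?_
    have h1 := (tendsto_ext hp hc h x).const_smul a
    refine h1.congr fun v => ?_
    simp only [Submodule.coe_smul, map_smul]

/-- the action of `H` on the continuous vectors -/
noncomputable def act (hp : DenseRange p) (hc : ∀ v x, ‖c v x‖ = ‖x‖) (h : H) :
    contVec p c →L[ℂ] contVec p c :=
  LinearIsometry.toContinuousLinearMap ⟨actL hp hc h, fun x => norm_ext hp hc h x⟩

theorem coe_act (hp : DenseRange p) (hc : ∀ v x, ‖c v x‖ = ‖x‖) (h : H) (x : contVec p c) :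
    ((act hp hc h x : contVec p c) : K) = ext hp hc h x := rfl

/-- the defining property of the action -/
theorem tendsto_act (hp : DenseRange p) (hc : ∀ v x, ‖c v x‖ = ‖x‖) (h : H) (x : contVec p c) :
    Tendsto (fun v => c v (x : K)) (comap p (𝓝 h)) (𝓝 (act hp hc h x : K)) :=
  tendsto_ext hp hc h x

theorem act_eq (hp : DenseRange p) (hc : ∀ v x, ‖c v x‖ = ‖x‖) {h : H} {x y : contVec p c}
    (hy : Tendsto (fun v => c v (x : K)) (comap p (𝓝 h)) (𝓝 (y : K))) : act hp hc h x = y :=
  Subtype.ext (ext_eq hp hc hy)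

theorem norm_act (hp : DenseRange p) (hc : ∀ v x, ‖c v x‖ = ‖x‖) (h : H) (x : contVec p c) :
    ‖act hp hc h x‖ = ‖x‖ := norm_ext hp hc h x

/-- on the dense subgroup it is the given action -/
theorem act_coe (hp : DenseRange p) (hc : ∀ v x, ‖c v x‖ = ‖x‖) (v : Λ) (x : contVec p c) :
    (act hp hc (p v) x : K) = c v x := by
  have h1 : Tendsto (fun w => c w (x : K)) (comap p (𝓝 (p v))) (𝓝 (c v x)) := by
    have h2 : Tendsto (fun w => v⁻¹ * w) (comap p (𝓝 (p v))) (comap p (𝓝 1)) := by
      rw [tendsto_comap_iff]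
      have h3 : Tendsto (fun h : H => (p v)⁻¹ * h) (𝓝 (p v)) (𝓝 ((p v)⁻¹ * p v)) :=
        Continuous.tendsto (by fun_prop) _
      rw [inv_mul_cancel] at h3
      refine (h3.comp tendsto_comap).congr fun w => ?_
      simp only [Function.comp_apply, map_mul, map_inv]
    have h4 := ((c v).continuous.tendsto (x : K)).comp ((mem_contVec.1 x.2).comp h2)
    refine h4.congr fun w => ?_
    simp only [Function.comp_apply]
    rw [← comp_mul, mul_inv_cancel_left]
  exact ext_eq hp hc h1

theorem act_mul (hp : DenseRange p) (hc : ∀ v x, ‖c v x‖ = ‖x‖) (h k : H) (x : contVec p c) :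
    act hp hc (h * k) x = act hp hc h (act hp hc k x) := by
  have := neBot_comap hp h
  have := neBot_comap hp k
  -- both sides are limits of `c (v w) x`
  have h1 : Tendsto (fun q : Λ × Λ => c (q.1 * q.2) (x : K))
      (comap p (𝓝 h) ×ˢ comap p (𝓝 k)) (𝓝 (act hp hc (h * k) x : K)) := by
    have h2 : Tendsto (fun q : Λ × Λ => q.1 * q.2) (comap p (𝓝 h) ×ˢ comap p (𝓝 k))
        (comap p (𝓝 (h * k))) := by
      rw [tendsto_comap_iff]
      have h3 : Tendsto (fun q : H × H => q.1 * q.2) (𝓝 h ×ˢ 𝓝 k) (𝓝 (h * k)) := by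
        rw [← nhds_prod_eq]
        exact Continuous.tendsto (by fun_prop) _
      refine (h3.comp (tendsto_comap.prodMap tendsto_comap)).congr fun q => ?_
      simp only [Function.comp_apply, map_mul, Prod.map_fst, Prod.map_snd]
    exact (tendsto_act hp hc (h * k) x).comp h2
  have h4 : Tendsto (fun q : Λ × Λ => c (q.1 * q.2) (x : K))
      (comap p (𝓝 h) ×ˢ comap p (𝓝 k)) (𝓝 (act hp hc h (act hp hc k x) : K)) := by
    have h5 : Tendsto (fun q : Λ × Λ => c q.1 (act hp hc k x : K))
        (comap p (𝓝 h) ×ˢ comap p (𝓝 k)) (𝓝 (act hp hc h (act hp hc k x) : K)) :=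
      (tendsto_act hp hc h (act hp hc k x)).comp tendsto_fst
    have h6 : Tendsto (fun q : Λ × Λ => c q.1 (c q.2 (x : K)) - c q.1 (act hp hc k x : K))
        (comap p (𝓝 h) ×ˢ comap p (𝓝 k)) (𝓝 0) := by
      rw [tendsto_zero_iff_norm_tendsto_zero]
      have h7 : Tendsto (fun q : Λ × Λ => ‖c q.2 (x : K) - (act hp hc k x : K)‖)
          (comap p (𝓝 h) ×ˢ comap p (𝓝 k)) (𝓝 0) := by
        have h8 := ((tendsto_act hp hc k x).sub_const (act hp hc k x : K)).norm
        rw [sub_self, norm_zero] at h8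
        exact h8.comp tendsto_snd
      refine h7.congr fun q => ?_
      rw [norm_sub_act hc]
    have h9 := h6.add h5
    rw [zero_add] at h9
    refine h9.congr fun q => ?_
    rw [sub_add_cancel, ← comp_mul]
  exact Subtype.ext (tendsto_nhds_unique h1 h4)

theorem act_one (hp : DenseRange p) (hc : ∀ v x, ‖c v x‖ = ‖x‖) (x : contVec p c) :
    act hp hc (1 : H) x = x :=
  act_eq hp hc (mem_contVec.1 x.2)

/-- The action of `H` on the closed subspace of continuous vectors, as a homomorphism. -/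
noncomputable def alpha (hp : DenseRange p) (hc : ∀ v x, ‖c v x‖ = ‖x‖) :
    H →* (contVec p c →L[ℂ] contVec p c) where
  toFun h := act hp hc h
  map_one' := by
    ext x
    rw [act_one]
    rfl
  map_mul' h k := by
    ext x
    rw [act_mul]
    rfl

theorem alpha_coe (hp : DenseRange p) (hc : ∀ v x, ‖c v x‖ = ‖x‖) (v : Λ) (x : contVec p c) :
    (alpha hp hc (p v) x : K) = c v x := act_coe hp hc v x

theorem norm_alpha (hp : DenseRange p) (hc : ∀ v x, ‖c v x‖ = ‖x‖) (h : H) (x : contVec p c) :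
    ‖alpha hp hc h x‖ = ‖x‖ := norm_act hp hc h x

theorem tendsto_alpha (hp : DenseRange p) (hc : ∀ v x, ‖c v x‖ = ‖x‖) (h : H)
    (x : contVec p c) :
    Tendsto (fun v => c v (x : K)) (comap p (𝓝 h)) (𝓝 (alpha hp hc h x : K)) :=
  tendsto_ext hp hc h x

theorem tendsto_alpha_one (hp : DenseRange p) (hc : ∀ v x, ‖c v x‖ = ‖x‖) (x : contVec p c) :
    Tendsto (fun h => alpha hp hc h x) (𝓝 1) (𝓝 x) := by
  rw [Metric.tendsto_nhds]
  intro ε hε
  obtain ⟨U, hU, hU2⟩ := mem_contVec_iff.1 x.2 (ε / 2) (by positivity)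
  obtain ⟨W, hWU, hWo, hW1⟩ := mem_nhds_iff.1 hU
  refine Filter.mem_of_superset (hWo.mem_nhds hW1) fun h hh => ?_
  have := neBot_comap hp h
  have h1 := ((tendsto_alpha hp hc h x).sub_const (x : K)).norm
  have h2 : ‖(alpha hp hc h x : K) - x‖ ≤ ε / 2 := by
    refine le_of_tendsto h1 ?_
    refine Filter.mem_comap.2 ⟨W, hWo.mem_nhds hh, fun v hv => ?_⟩
    exact hU2 v (hWU hv)
  have h3 : dist (alpha hp hc h x) x < ε := by
    rw [dist_eq_norm]
    have h4 : ‖alpha hp hc h x - x‖ = ‖(alpha hp hc h x : K) - x‖ := rfl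
    rw [h4]
    linarith
  exact h3

/-- strong continuity -/
theorem continuous_alpha (hp : DenseRange p) (hc : ∀ v x, ‖c v x‖ = ‖x‖) (x : contVec p c) :
    Continuous fun h => alpha hp hc h x := by
  rw [continuous_iff_continuousAt]
  intro k
  have h1 : Tendsto (fun h => k⁻¹ * h) (𝓝 k) (𝓝 (1 : H)) := by
    have h2 : Tendsto (fun h => k⁻¹ * h) (𝓝 k) (𝓝 (k⁻¹ * k)) := Continuous.tendsto (by fun_prop) _
    rwa [inv_mul_cancel] at h2
  have h3 := ((alpha hp hc k).continuous.tendsto x).comp ((tendsto_alpha_one hp hc x).comp h1)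
  refine h3.congr fun h => ?_
  simp only [Function.comp_apply]
  have h4 : (alpha hp hc k * alpha hp hc (k⁻¹ * h)) x = alpha hp hc h x := by
    rw [← map_mul, mul_inv_cancel_left]
  exact h4

theorem alpha_inv_alpha (hp : DenseRange p) (hc : ∀ v x, ‖c v x‖ = ‖x‖) (h : H)
    (x : contVec p c) : alpha hp hc h⁻¹ (alpha hp hc h x) = x := by
  have h4 : (alpha hp hc h⁻¹ * alpha hp hc h) x = x := by
    rw [← map_mul, inv_mul_cancel, map_one]; rfl
  exact h4

theorem alpha_alpha_inv (hp : DenseRange p) (hc : ∀ v x, ‖c v x‖ = ‖x‖) (h : H)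
    (x : contVec p c) : alpha hp hc h (alpha hp hc h⁻¹ x) = x := by
  have h4 : (alpha hp hc h * alpha hp hc h⁻¹) x = x := by
    rw [← map_mul, mul_inv_cancel, map_one]; rfl
  exact h4

theorem inner_alpha (hp : DenseRange p) (hc : ∀ v x, ‖c v x‖ = ‖x‖) (h : H)
    (x y : contVec p c) : ⟪alpha hp hc h x, alpha hp hc h y⟫_ℂ = ⟪x, y⟫_ℂ :=
  (LinearIsometry.mk (alpha hp hc h).toLinearMap (norm_alpha hp hc h)).inner_map_map x y

omit [IsTopologicalGroup H] in
theorem completeSpace_contVec (hc : ∀ v x, ‖c v x‖ = ‖x‖) : CompleteSpace (contVec p c) :=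
  (isClosed_contVec hc).completeSpace_coe

/-- `α h⁻¹` is the adjoint of `α h` -/
theorem adjoint_alpha [CompleteSpace (contVec p c)] (hp : DenseRange p)
    (hc : ∀ v x, ‖c v x‖ = ‖x‖) (h : H) :
    ContinuousLinearMap.adjoint (alpha hp hc h) = alpha hp hc h⁻¹ := by
  symm
  rw [ContinuousLinearMap.eq_adjoint_iff]
  intro x y
  rw [← inner_alpha hp hc h (alpha hp hc h⁻¹ x) y, alpha_alpha_inv]

/-- uniqueness: a vector valued function on `H`, continuous at `h`, which is the orbit map on the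
dense subgroup, has the value `α h x` at `h`. -/
theorem alpha_unique (hp : DenseRange p) (hc : ∀ v x, ‖c v x‖ = ‖x‖) {x : contVec p c}
    {f : H → K} {h : H} (hf : ContinuousAt f h) (hfc : ∀ v, f (p v) = c v x) :
    (alpha hp hc h x : K) = f h := by
  refine ext_eq hp hc ?_
  refine (hf.tendsto.comp tendsto_comap).congr fun v => ?_
  simp only [Function.comp_apply]
  exact hfc v

end Ext

section Equiv

variable {Λ H K K' : Type*} [Group Λ] [Group H] [TopologicalSpace H] [IsTopologicalGroup H]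
  [NormedAddCommGroup K] [InnerProductSpace ℂ K] [CompleteSpace K]
  [NormedAddCommGroup K'] [InnerProductSpace ℂ K'] [CompleteSpace K']
  {p : Λ →* H} {c : Λ →* (K →L[ℂ] K)} {c' : Λ →* (K' →L[ℂ] K')}

/-- a continuous equivariant map (not necessarily linear) commutes with the action of `H` -/
theorem map_alpha (hp : DenseRange p) (hc : ∀ v x, ‖c v x‖ = ‖x‖) (hc' : ∀ v x, ‖c' v x‖ = ‖x‖)
    {S : K → K'} (hS : Continuous S) (h : ∀ v x, S (c v x) = c' v (S x)) (k : H)
    (x : contVec p c) :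
    S (alpha hp hc k x : K) =
      (alpha hp hc' k ⟨S x, map_mem_contVec hS.continuousAt (fun v => h v x) x.2⟩ : K') := by
  symm
  refine ext_eq hp hc' ?_
  refine ((hS.tendsto _).comp (tendsto_alpha hp hc k x)).congr fun v => ?_
  simp only [Function.comp_apply]
  exact h v x

/-- a map which is equivariant and continuous along the orbit of `x` commutes with the action on
`x` -/
theorem map_alpha_at (hp : DenseRange p) (hc : ∀ v x, ‖c v x‖ = ‖x‖)
    (hc' : ∀ v x, ‖c' v x‖ = ‖x‖) {S : K → K'} (k : H) (x : contVec p c) (y : contVec p c')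
    (hS : Tendsto (fun v => S (c v x)) (comap p (𝓝 k)) (𝓝 (S (alpha hp hc k x))))
    (h : ∀ v, S (c v x) = c' v y) :
    S (alpha hp hc k x : K) = (alpha hp hc' k y : K') := by
  symm
  refine ext_eq hp hc' ?_
  refine hS.congr fun v => ?_
  exact h v

end Equiv

end Vale.Agent.P092.H201
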