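import Mathlib
import Vale.Agent.P092.H201.Cont

/-!
P092 (helper201): the orthogonality lemma.  A function on `Λ` which vanishes at infinity and is
almost invariant under conjugation by the elements near `1` in `H` vanishes at every `v` such that
the centraliser of `p v` in `H` is not open.
-/

open Topology Filter
open scoped InnerProductSpace

namespace Vale.Agent.P092.H201

section Conj

variable {Λ H : Type*} [Group Λ] [Group H] [TopologicalSpace H] [IsTopologicalGroup H]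
  {p : Λ →* H}

/-- If the conjugates `w v w⁻¹`, `p w` near `1`, form a finite set, then the centraliser of `p v`
is open. -/
theorem centralizer_mem_nhds [T1Space H] (hp : DenseRange p) {v : Λ} {U : Set H}
    (hU : U ∈ 𝓝 (1 : H)) {F : Set Λ} (hF : F.Finite)
    (h : ∀ w, p w ∈ U → w * v * w⁻¹ ∈ F) :
    {h : H | h * p v * h⁻¹ = p v} ∈ 𝓝 (1 : H) := by
  have hpF : (p '' F).Finite := hF.image p
  obtain ⟨W, hWU, hWo, hW1⟩ := mem_nhds_iff.1 hU
  have hcont : Continuous fun h : H => h * p v * h⁻¹ := by fun_prop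
  -- the conjugates by all elements of `W` lie in the finite set
  have h1 : ∀ u ∈ W, u * p v * u⁻¹ ∈ p '' F := by
    intro u hu
    have hcl : IsClosed (p '' F) := hpF.isClosed
    have := neBot_comap hp u
    have h2 : Tendsto (fun w => p w * p v * (p w)⁻¹) (comap p (𝓝 u)) (𝓝 (u * p v * u⁻¹)) :=
      (hcont.tendsto u).comp tendsto_comap
    refine hcl.mem_of_tendsto h2 ?_
    refine Filter.mem_comap.2 ⟨W, hWo.mem_nhds hu, fun w hw => ?_⟩
    refine ⟨w * v * w⁻¹, h w (hWU hw), ?_⟩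
    simp only [map_mul, map_inv]
  -- the finitely many other values are avoided near `1`
  have h3 : {h : H | h * p v * h⁻¹ ∉ (p '' F) \ {p v}} ∈ 𝓝 (1 : H) := by
    have h4 : IsClosed ((p '' F) \ {p v}) := (hpF.subset Set.sdiff_subset).isClosed
    have h5 : (fun h : H => h * p v * h⁻¹) ⁻¹' ((p '' F) \ {p v})ᶜ ∈ 𝓝 (1 : H) := by
      refine hcont.continuousAt.preimage_mem_nhds (h4.isOpen_compl.mem_nhds ?_)
      simp
    exact h5
  refine Filter.mem_of_superset (Filter.inter_mem (hWo.mem_nhds hW1) h3) fun u hu => ?_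
  have h6 := h1 u hu.1
  by_contra h7
  exact hu.2 ⟨h6, h7⟩

/-- **Lemma (F1), scalar form.** -/
theorem eq_zero_of_conj [T1Space H] (hp : DenseRange p) {φ : Λ → ℂ}
    (hφ : Tendsto φ cofinite (𝓝 0))
    (hu : ∀ ε : ℝ, 0 < ε → ∃ U ∈ 𝓝 (1 : H), ∀ w, p w ∈ U → ∀ v, ‖φ (w * v * w⁻¹) - φ v‖ ≤ ε)
    {v : Λ} (hv : {h : H | h * p v * h⁻¹ = p v} ∉ 𝓝 (1 : H)) : φ v = 0 := by
  by_contra h0
  have hpos : 0 < ‖φ v‖ := norm_pos_iff.2 h0
  obtain ⟨U, hU, hU2⟩ := hu (‖φ v‖ / 2) (by positivity)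
  apply hv
  have hF : {x : Λ | ‖φ v‖ / 2 ≤ ‖φ x‖}.Finite := by
    have h1 : ∀ᶠ x in cofinite, ‖φ x‖ < ‖φ v‖ / 2 := by
      have h2 := hφ.norm
      rw [norm_zero] at h2
      exact h2.eventually (gt_mem_nhds (by positivity))
    rw [Filter.eventually_cofinite] at h1
    refine h1.subset fun x hx => ?_
    simpa only [not_lt] using hx
  refine centralizer_mem_nhds hp hU hF fun w hw => ?_
  have h3 := hU2 w hw v
  have h4 : ‖φ v‖ ≤ ‖φ (w * v * w⁻¹)‖ + ‖φ (w * v * w⁻¹) - φ v‖ := by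
    have h5 : φ v = φ (w * v * w⁻¹) - (φ (w * v * w⁻¹) - φ v) := by ring
    calc ‖φ v‖ = ‖φ (w * v * w⁻¹) - (φ (w * v * w⁻¹) - φ v)‖ := by rw [← h5]
      _ ≤ _ := norm_sub_le _ _
  change ‖φ v‖ / 2 ≤ ‖φ (w * v * w⁻¹)‖
  linarith

/-- the centraliser formulation of the hypothesis -/
theorem not_mem_nhds_of_not_isOpen {x : H}
    (h : ¬ IsOpen (Subgroup.centralizer {x} : Set H)) : {h : H | h * x * h⁻¹ = x} ∉ 𝓝 (1 : H) := by
  intro h1
  apply h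
  refine Subgroup.isOpen_of_mem_nhds _ (g := 1) ?_
  refine Filter.mem_of_superset h1 fun u hu => ?_
  rw [SetLike.mem_coe, Subgroup.mem_centralizer_iff]
  intro y hy
  rw [Set.mem_singleton_iff] at hy
  subst hy
  have hu2 : u * y * u⁻¹ = y := hu
  calc y * u = u * y * u⁻¹ * u := by rw [hu2]
    _ = u * y := by group

end Conj

section Bimodule

variable {Λ H K : Type*} [Group Λ] [Group H] [TopologicalSpace H] [IsTopologicalGroup H]
  [NormedAddCommGroup K] [InnerProductSpace ℂ K]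
  {p : Λ →* H} {c L R : Λ →* (K →L[ℂ] K)}

/-- **Lemma (F1), bimodule form.**  `L` and `R` are commuting isometric actions of `Λ` on `K`,
`c v = L v R v` (in the application `L v x = V_v x`, `R v x = x V_v⁎`, `c v x = V_v x V_v⁎`), the
coefficient of `R` given by `y`, `x` vanishes at infinity, `x` and `y` are `H`-continuous vectors
for `c`.  Then `⟪R v y, x⟫ = 0` for every `v` such that the centraliser of `p v` is not open. -/
theorem inner_eq_zero [T1Space H] (hp : DenseRange p)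
    (hL : ∀ v x, ‖L v x‖ = ‖x‖) (hR : ∀ v x, ‖R v x‖ = ‖x‖)
    (hLR : ∀ v w x, L v (R w x) = R w (L v x)) (hcLR : ∀ v x, c v x = L v (R v x))
    {x y : K} (hmix : Tendsto (fun v => ⟪R v y, x⟫_ℂ) cofinite (𝓝 0))
    (hx : x ∈ contVec p c) (hy : y ∈ contVec p c)
    {v : Λ} (hv : {h : H | h * p v * h⁻¹ = p v} ∉ 𝓝 (1 : H)) : ⟪R v y, x⟫_ℂ = 0 := by
  refine eq_zero_of_conj (φ := fun v => ⟪R v y, x⟫_ℂ) hp hmix ?_ hv
  intro ε hε
  rw [mem_contVec_iff] at hx hy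
  set N : ℝ := ‖x‖ + ‖y‖ + 1 with hN
  have hN0 : 0 < N := by positivity
  obtain ⟨U₁, hU₁, hU₁2⟩ := hx (ε / (2 * N)) (by positivity)
  obtain ⟨U₂, hU₂, hU₂2⟩ := hy (ε / (2 * N)) (by positivity)
  have hU : (fun h : H => h⁻¹) ⁻¹' (U₁ ∩ U₂) ∈ 𝓝 (1 : H) := by
    refine (continuous_inv.continuousAt).preimage_mem_nhds ?_
    rw [inv_one]
    exact Filter.inter_mem hU₁ hU₂
  refine ⟨_, hU, fun w hw u => ?_⟩
  have hw1 : p w⁻¹ ∈ U₁ := by rw [map_inv]; exact hw.1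
  have hw2 : p w⁻¹ ∈ U₂ := by rw [map_inv]; exact hw.2
  have h1 := hU₁2 _ hw1
  have h2 := hU₂2 _ hw2
  -- the identity `φ (w u w⁻¹) = ⟪R u (c w⁻¹ y), c w⁻¹ x⟫`
  have h3 : ⟪R (w * u * w⁻¹) y, x⟫_ℂ = ⟪R u (c w⁻¹ y), c w⁻¹ x⟫_ℂ := by
    have h4 : ⟪R (w * u * w⁻¹) y, x⟫_ℂ = ⟪R w⁻¹ (R (w * u * w⁻¹) y), R w⁻¹ x⟫_ℂ :=
      (inner_act hR _ _ _).symm
    have h5 : R w⁻¹ (R (w * u * w⁻¹) y) = R u (R w⁻¹ y) := by
      rw [← comp_mul, ← comp_mul]
      congr 2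
      group
    have h6 : ⟪R u (R w⁻¹ y), R w⁻¹ x⟫_ℂ = ⟪L w⁻¹ (R u (R w⁻¹ y)), L w⁻¹ (R w⁻¹ x)⟫_ℂ :=
      (inner_act hL _ _ _).symm
    rw [h4, h5, h6, hLR, ← hcLR, ← hcLR]
  rw [h3]
  have h7 : ⟪R u (c w⁻¹ y), c w⁻¹ x⟫_ℂ - ⟪R u y, x⟫_ℂ =
      ⟪R u (c w⁻¹ y - y), c w⁻¹ x⟫_ℂ + ⟪R u y, c w⁻¹ x - x⟫_ℂ := by
    rw [map_sub, inner_sub_left, inner_sub_right]
    ring
  rw [h7]
  have hcx : ‖c w⁻¹ x‖ = ‖x‖ := by rw [hcLR, hL, hR]
  have h8 : ‖⟪R u (c w⁻¹ y - y), c w⁻¹ x⟫_ℂ‖ ≤ ε / (2 * N) * N := by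
    refine (norm_inner_le_norm _ _).trans ?_
    rw [hR, hcx]
    refine mul_le_mul h2 ?_ (norm_nonneg _) (by positivity)
    have := norm_nonneg y
    linarith
  have h9 : ‖⟪R u y, c w⁻¹ x - x⟫_ℂ‖ ≤ N * (ε / (2 * N)) := by
    refine (norm_inner_le_norm _ _).trans ?_
    rw [hR]
    refine mul_le_mul ?_ h1 (norm_nonneg _) hN0.le
    have := norm_nonneg x
    linarith
  have h10 : ε / (2 * N) * N = ε / 2 := by
    field_simp
  have h11 : N * (ε / (2 * N)) = ε / 2 := by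
    field_simp
  refine (norm_add_le _ _).trans ?_
  linarith

/-- the translates `R v (contVec)` are pairwise orthogonal -/
theorem inner_eq_zero_of_ne [T1Space H] (hp : DenseRange p)
    (hL : ∀ v x, ‖L v x‖ = ‖x‖) (hR : ∀ v x, ‖R v x‖ = ‖x‖)
    (hLR : ∀ v w x, L v (R w x) = R w (L v x)) (hcLR : ∀ v x, c v x = L v (R v x))
    (hmix : ∀ x y, Tendsto (fun v => ⟪R v y, x⟫_ℂ) cofinite (𝓝 0))
    (hv : ∀ v : Λ, v ≠ 1 → {h : H | h * p v * h⁻¹ = p v} ∉ 𝓝 (1 : H))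
    {x y : K} (hx : x ∈ contVec p c) (hy : y ∈ contVec p c) {v w : Λ} (hvw : v ≠ w) :
    ⟪R v y, R w x⟫_ℂ = 0 := by
  have h1 : ⟪R v y, R w x⟫_ℂ = ⟪R w⁻¹ (R v y), R w⁻¹ (R w x)⟫_ℂ := (inner_act hR _ _ _).symm
  rw [h1, ← comp_mul, comp_inv]
  refine inner_eq_zero hp hL hR hLR hcLR (hmix x y) hx hy (hv _ ?_)
  intro h2
  exact hvw (inv_mul_eq_one.1 h2).symm

/-- the translates of the space of continuous vectors form an orthogonal family -/
theorem orthogonalFamily [T1Space H] (hp : DenseRange p)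
    (hL : ∀ v x, ‖L v x‖ = ‖x‖) (hR : ∀ v x, ‖R v x‖ = ‖x‖)
    (hLR : ∀ v w x, L v (R w x) = R w (L v x)) (hcLR : ∀ v x, c v x = L v (R v x))
    (hmix : ∀ x y, Tendsto (fun v => ⟪R v y, x⟫_ℂ) cofinite (𝓝 0))
    (hv : ∀ v : Λ, v ≠ 1 → {h : H | h * p v * h⁻¹ = p v} ∉ 𝓝 (1 : H)) :
    OrthogonalFamily ℂ (fun _ : Λ => contVec p c)
      (fun v => (LinearIsometry.mk (R v).toLinearMap (hR v)).comp (contVec p c).subtypeₗᵢ) := by
  intro v w hvw x y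
  exact inner_eq_zero_of_ne hp hL hR hLR hcLR hmix hv y.2 x.2 hvw

end Bimodule

end Vale.Agent.P092.H201
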