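import Vale.Agent.P092.PA.Defs
import Vale.Agent.P092.H103.IndFix3
import Vale.Agent.P092.H201.WLim

/-!
P092 (helper201): from coefficients of the induced representation which do not tend to zero to
equivariant functions on one factor, for Howe-Moore groups.
-/

set_option linter.all false

open scoped InnerProductSpace ENNReal
open Set Filter Topology MeasureTheory ContinuousLinearMap

namespace Vale.Agent.P092.H201

open Vale.Agent.P092.H790 Vale.Agent.P092.H85 Vale.Agent.P092.H103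

section HM

/-- For a Howe-Moore group the translates of a vector converge weakly to a fixed vector. -/
theorem weak_to_fixed {S : Type} [Group S] [TopologicalSpace S] (hHM : PA.HM S) {X : Type}
    [NormedAddCommGroup X] [InnerProductSpace ℂ X] [CompleteSpace X] (σ : S →* (X →L[ℂ] X))
    (hiso : ∀ g ξ, ‖σ g ξ‖ = ‖ξ‖) (hcont : ∀ ξ, Continuous fun g => σ g ξ) (F : X) :
    ∃ η : X, (∀ g, σ g η = η) ∧
      ∀ z, Tendsto (fun g => ⟪z, σ g F⟫_ℂ) (cocompact S) (𝓝 ⟪z, η⟫_ℂ) := by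
  have hinv : ∀ g ξ, σ g (σ g⁻¹ ξ) = ξ := by
    intro g ξ
    have h1 : (σ g * σ g⁻¹) ξ = ξ := by rw [← map_mul, mul_inv_cancel, map_one]; rfl
    exact h1
  have hin : ∀ g ξ ζ, ⟪σ g ξ, σ g ζ⟫_ℂ = ⟪ξ, ζ⟫_ℂ := fun g ξ ζ =>
    (LinearIsometry.mk (σ g).toLinearMap (hiso g)).inner_map_map ξ ζ
  let X₀ : Submodule ℂ X :=
    { carrier := {ξ | ∀ g, σ g ξ = ξ}
      add_mem' := fun {a b} ha hb g => by rw [map_add, ha g, hb g]
      zero_mem' := fun g => map_zero _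
      smul_mem' := fun c x hx g => by rw [map_smul, hx g] }
  have hX₀ : IsClosed (X₀ : Set X) := by
    have h1 : (X₀ : Set X) = ⋂ g, {ξ | σ g ξ = ξ} := by
      ext ξ
      simp only [mem_iInter]
      exact Iff.rfl
    rw [h1]
    exact isClosed_iInter fun g => isClosed_eq (σ g).continuous continuous_id
  haveI : CompleteSpace X₀ := hX₀.completeSpace_coe
  have hpres : ∀ g, ∀ ξ ∈ X₀ᗮ, σ g ξ ∈ X₀ᗮ := by
    intro g ξ hξ
    rw [Submodule.mem_orthogonal] at hξ ⊢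
    intro u hu
    have h1 : σ g u = u := hu g
    rw [← h1, hin]
    exact hξ u hu
  let σ₁ : S →* (X₀ᗮ →L[ℂ] X₀ᗮ) :=
    { toFun := fun g => ((σ g).comp X₀ᗮ.subtypeL).codRestrict X₀ᗮ (fun ξ => hpres g ξ ξ.2)
      map_one' := by
        ext ξ
        change σ 1 (ξ : X) = ξ
        rw [map_one]
        rfl
      map_mul' := fun g h => by
        ext ξ
        change σ (g * h) (ξ : X) = σ g (σ h (ξ : X))
        rw [map_mul]
        rfl }
  have hσ₁ : ∀ g (ξ : X₀ᗮ), ((σ₁ g ξ : X₀ᗮ) : X) = σ g ξ := fun g ξ => rfl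
  have hmix := hHM X₀ᗮ σ₁ (fun g ξ => hiso g ξ)
    (fun ξ => Continuous.subtype_mk (hcont ξ) _) (by
      intro ξ hξ
      have h1 : (ξ : X) ∈ X₀ := fun g => by rw [← hσ₁, hξ g]
      have h2 := ξ.2
      rw [Submodule.mem_orthogonal] at h2
      have h3 := h2 ξ h1
      rw [inner_self_eq_zero] at h3
      exact Subtype.ext h3)
  obtain ⟨η, hη⟩ : ∃ η : X, η = X₀.starProjection F := ⟨_, rfl⟩
  have hηX : η ∈ X₀ := by rw [hη]; exact Submodule.starProjection_apply_mem _ _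
  have hF₁ : F - η ∈ X₀ᗮ := by
    rw [hη]
    exact Submodule.sub_starProjection_mem_orthogonal F
  refine ⟨η, hηX, fun z => ?_⟩
  have hz₁ : z - X₀.starProjection z ∈ X₀ᗮ := Submodule.sub_starProjection_mem_orthogonal z
  have h1 := hmix ⟨z - X₀.starProjection z, hz₁⟩ ⟨F - η, hF₁⟩
  have h2 : ∀ g, ⟪z, σ g F⟫_ℂ = ⟪(⟨z - X₀.starProjection z, hz₁⟩ : X₀ᗮ),
      σ₁ g ⟨F - η, hF₁⟩⟫_ℂ + ⟪z, η⟫_ℂ := by
    intro g
    have h3 : ⟪(⟨z - X₀.starProjection z, hz₁⟩ : X₀ᗮ), σ₁ g ⟨F - η, hF₁⟩⟫_ℂ =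
        ⟪z - X₀.starProjection z, σ g (F - η)⟫_ℂ := rfl
    have h4 : ⟪X₀.starProjection z, σ g (F - η)⟫_ℂ = 0 :=
      (Submodule.mem_orthogonal _ _).1 (hpres g _ hF₁) _ (Submodule.starProjection_apply_mem _ _)
    rw [h3, inner_sub_left, h4, sub_zero, map_sub, hηX g, inner_sub_right, sub_add_cancel]
  have h5 := h1.add_const ⟪z, η⟫_ℂ
  rw [zero_add] at h5
  exact h5.congr fun g => (h2 g).symm

end HM

section closed

variable {Y X : Type} [MeasurableSpace Y] {ν : Measure Y} [NormedAddCommGroup X]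
  [InnerProductSpace ℂ X] {C : Set X}

/-- the sections with values in a closed set form a closed set -/
theorem isClosed_ae_mem (hC : IsClosed C) : IsClosed {F : Lp X 2 ν | ∀ᵐ x ∂ν, F x ∈ C} := by
  rw [← isSeqClosed_iff_isClosed]
  intro F F₀ hF hlim
  have h1 : TendstoInMeasure ν (fun n => ⇑(F n)) atTop ⇑F₀ := tendstoInMeasure_of_tendsto_Lp hlim
  obtain ⟨ns, _, h2⟩ := h1.exists_seq_tendsto_ae
  have h3 : ∀ᵐ x ∂ν, ∀ n, F n x ∈ C := ae_all_iff.2 fun n => hF n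
  filter_upwards [h2, h3] with x hx hx3
  exact hC.mem_of_tendsto hx (Eventually.of_forall fun n => hx3 _)

theorem convex_ae_mem (hC : Convex ℝ C) : Convex ℝ {F : Lp X 2 ν | ∀ᵐ x ∂ν, F x ∈ C} := by
  intro F hF G hG a b ha hb hab
  have h1 : ∀ᵐ x ∂ν, F x ∈ C := hF
  have h2 : ∀ᵐ x ∂ν, G x ∈ C := hG
  change ∀ᵐ x ∂ν, (a • F + b • G : Lp X 2 ν) x ∈ C
  filter_upwards [h1, h2, Lp.coeFn_add (a • F) (b • G), Lp.coeFn_smul a F, Lp.coeFn_smul b G]
    with x h1 h2 h3 h4 h5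
  rw [h3, Pi.add_apply, h4, h5, Pi.smul_apply, Pi.smul_apply]
  exact hC h1 h2 ha hb hab

end closed

section core

variable {G₁ G₂ : Type} [Group G₁] [TopologicalSpace G₁] [IsTopologicalGroup G₁]
  [LocallyCompactSpace G₁] [SecondCountableTopology G₁] [T2Space G₁] [MeasurableSpace G₁]
  [BorelSpace G₁] [Group G₂] [TopologicalSpace G₂] [IsTopologicalGroup G₂]
  [LocallyCompactSpace G₂] [SecondCountableTopology G₂] [T2Space G₂] [MeasurableSpace G₂]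
  [BorelSpace G₂]
  {E : Type} [Group E] [TopologicalSpace E] [IsTopologicalGroup E] [LocallyCompactSpace E]
  [SecondCountableTopology E] [T2Space E] [MeasurableSpace E] [BorelSpace E]
  {Λ : Subgroup E} [DiscreteTopology Λ] [MeasurableSpace (E ⧸ Λ)]
  [BorelSpace (E ⧸ Λ)] {ν : Measure (E ⧸ Λ)} [IsProbabilityMeasure ν]
  (hν : ∀ g : E, ν.map (fun x => g • x) = ν)
  {X : Type} [NormedAddCommGroup X] [InnerProductSpace ℂ X] [CompleteSpace X]
  {π : Λ →* (X →L[ℂ] X)} (hπ : ∀ g, adjoint (π g) = π g⁻¹) [Countable Λ]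

include hπ in
/-- the coefficient of a constant section -/
theorem coef_const (f : X) (g : E) :
    ⟪Lp.const 2 ν f, iro hν π g (Lp.const 2 ν f)⟫_ℂ = ∫ x, ⟪f, π (coc Λ g x) f⟫_ℂ ∂ν := by
  rw [L2.inner_def]
  have c1 : ⇑(Lp.const 2 ν f) =ᵐ[ν] Function.const _ f := Lp.coeFn_const ..
  have c3 : ∀ᵐ x ∂ν, (Lp.const 2 ν f : Lp X 2 ν) (g⁻¹ • x) = f := ae_comp (mpres hν g⁻¹) c1
  have h1 : ∫ x, ⟪(Lp.const 2 ν f : Lp X 2 ν) x, iro hν π g (Lp.const 2 ν f) x⟫_ℂ ∂ν =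
      ∫ x, ⟪f, π (coc Λ g (g⁻¹ • x)) f⟫_ℂ ∂ν := by
    refine integral_congr_ae ?_
    filter_upwards [iro_ae hν hπ g (Lp.const 2 ν f), c1, c3] with x a1 a2 a3
    rw [a1, a2, a3]
    rfl
  rw [h1]
  obtain ⟨φ, hφ⟩ : ∃ φ : E ⧸ Λ → ℂ, φ = fun x => ⟪f, π (coc Λ g x) f⟫_ℂ := ⟨_, rfl⟩
  have h2 : StronglyMeasurable φ := by
    rw [hφ]
    exact sm_glue (c := fun x : E ⧸ Λ => coc Λ g x) (F := fun v _ => ⟪f, π v f⟫_ℂ)
      (fun v => coc_meas Λ g v) (fun v => stronglyMeasurable_const)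
  have h3 : ∫ x, φ (g⁻¹ • x) ∂ν = ∫ x, φ x ∂ν := by
    have h4 := integral_map (μ := ν) (φ := fun x : E ⧸ Λ => g⁻¹ • x)
      (smul_meas Λ g⁻¹).aemeasurable (f := φ) h2.aestronglyMeasurable
    rw [hν] at h4
    exact h4.symm
  rw [hφ] at h3
  exact h3

include hν hπ in
/-- **From coefficients to equivariant functions.**  If the diagonal coefficients of the constant
section `f` do not tend to zero along the second factor (a Howe-Moore group), there is a nonzero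
bounded equivariant function on the first factor, with values in the invariant closed convex set
`𝒞`. -/
theorem core (hHM : PA.HM G₂) (e : G₁ × G₂ ≃* E) (he : Continuous e) (f : X) {𝒞 : Set X}
    (hC : IsClosed 𝒞) (hC2 : Convex ℝ 𝒞) (hC0 : (0 : X) ∈ 𝒞) (hCπ : ∀ v, ∀ w ∈ 𝒞, π v w ∈ 𝒞)
    (hf : f ∈ 𝒞) {b : ℕ → G₂} (hb : Tendsto b atTop (cocompact G₂)) {c : ℝ} (hc : 0 < c)
    (hm : ∃ᶠ N in atTop, c ≤ ‖∫ x, ⟪f, π (coc Λ (e (1, b N)) x) f⟫_ℂ ∂ν‖) :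
    ∃ (ψ : G₁ → X) (R : ℝ), StronglyMeasurable ψ ∧ (∀ h, ‖ψ h‖ ≤ R) ∧ (∀ h, ψ h ∈ 𝒞) ∧
      ¬ (ψ =ᵐ[(Measure.haar : Measure G₁)] 0) ∧
      ∀ γ : Λ, ∀ᵐ h ∂(Measure.haar : Measure G₁),
        ψ (h * (e.symm (γ : E)).1) = π γ⁻¹ (ψ h) := by
  obtain ⟨σ, hσ⟩ : ∃ σ : G₂ →* (Lp X 2 ν →L[ℂ] Lp X 2 ν),
      σ = (irep hν hπ).comp (e.toMonoidHom.comp (MonoidHom.inr G₁ G₂)) := ⟨_, rfl⟩
  have hσg : ∀ g, σ g = iro hν π (e (1, g)) := by
    intro g
    rw [hσ]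
    rfl
  have hcr := irep_crep hν hπ
  have hiso : ∀ g ξ, ‖σ g ξ‖ = ‖ξ‖ := by
    intro g ξ
    rw [hσ]
    exact Vale.Agent.P092.H885.u_norm hcr.adj _ ξ
  have hcont1 : ∀ ξ, Tendsto (fun g => σ g ξ) (𝓝 1) (𝓝 ξ) := by
    intro ξ
    have h1 : Tendsto (fun g : G₂ => e ((1 : G₁), g)) (𝓝 1) (𝓝 1) := by
      have h2 : Continuous fun g : G₂ => e ((1 : G₁), g) := he.comp (by fun_prop)
      have h3 := h2.tendsto 1
      have h4 : e ((1 : G₁), (1 : G₂)) = 1 := map_one e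
      rwa [h4] at h3
    have h5 := (hcr.cont ξ).comp h1
    refine h5.congr fun g => ?_
    rw [hσg]
    rfl
  have hcont : ∀ ξ, Continuous fun g => σ g ξ := by
    intro ξ
    rw [continuous_iff_continuousAt]
    intro k
    have h1 : Tendsto (fun h => k⁻¹ * h) (𝓝 k) (𝓝 (1 : G₂)) := by
      have h2 : Tendsto (fun h => k⁻¹ * h) (𝓝 k) (𝓝 (k⁻¹ * k)) :=
        Continuous.tendsto (by fun_prop) _
      rwa [inv_mul_cancel] at h2
    have h3 := ((σ k).continuous.tendsto ξ).comp ((hcont1 ξ).comp h1)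
    refine h3.congr fun h => ?_
    simp only [Function.comp_apply]
    have h4 : (σ k * σ (k⁻¹ * h)) ξ = σ h ξ := by
      rw [← map_mul, mul_inv_cancel_left]
    exact h4
  obtain ⟨F, hF⟩ : ∃ F : Lp X 2 ν, F = Lp.const 2 ν f := ⟨_, rfl⟩
  obtain ⟨η, hη1, hη2⟩ := weak_to_fixed hHM σ hiso hcont F
  have hcoef : ∀ N, ⟪F, σ (b N) F⟫_ℂ = ∫ x, ⟪f, π (coc Λ (e (1, b N)) x) f⟫_ℂ ∂ν := by
    intro N
    rw [hσg, hF, coef_const hν hπ]
  -- the limit is not zero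
  have hne : c ≤ ‖⟪F, η⟫_ℂ‖ := by
    have h1 := ((hη2 F).comp hb).norm
    by_contra hcon
    rw [not_le] at hcon
    have h2 : ∀ᶠ N in atTop, ‖⟪F, σ (b N) F⟫_ℂ‖ < c := h1.eventually (gt_mem_nhds hcon)
    obtain ⟨N, hN1, hN2⟩ := (hm.and_eventually h2).exists
    rw [hcoef] at hN2
    exact absurd hN1 (not_le.2 hN2)
  have hη0 : η ≠ 0 := by
    rintro rfl
    rw [inner_zero_right, norm_zero] at hne
    linarith
  -- values in the convex set
  have hηC : ∀ᵐ x ∂ν, η x ∈ 𝒞 := by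
    have h1 : ∀ z, Tendsto (fun N => ⟪z, σ (b N) F⟫_ℂ) atTop (𝓝 ⟪z, η⟫_ℂ) := fun z =>
      (hη2 z).comp hb
    refine mem_of_weak h1 (convex_ae_mem hC2) (isClosed_ae_mem hC) (Eventually.of_forall fun N => ?_)
    have c1 : ⇑(Lp.const 2 ν f) =ᵐ[ν] Function.const _ f := Lp.coeFn_const ..
    have c3 : ∀ᵐ x ∂ν, (Lp.const 2 ν f : Lp X 2 ν) ((e (1, b N))⁻¹ • x) = f :=
      ae_comp (mpres hν (e (1, b N))⁻¹) c1
    change ∀ᵐ x ∂ν, (σ (b N) F) x ∈ 𝒞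
    rw [hσg, hF]
    filter_upwards [iro_ae hν hπ (e (1, b N)) (Lp.const 2 ν f), c3] with x a1 a2
    rw [a1, a2]
    exact hCπ _ _ hf
  have hηf : ∀ g₂ : G₂, iro hν π (e ((1 : G₁), g₂)) η = η := by
    intro g
    rw [← hσg]
    exact hη1 g
  exact ind_fix_e hν hπ e he η hηf hη0 hC hC2 hC0 hCπ hηC

end core

end Vale.Agent.P092.H201
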